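import Vale.Agent.P283R.Gr.Eig
import Mathlib.Analysis.Fourier.FiniteAbelian.PontryaginDuality
import Mathlib.RingTheory.Filtration

/-!
# Finite commutative groups: decomposition into eigenvectors; faithful actions on local rings
-/

open Module

namespace Vale.Agent.P283R.Gr

section lin

variable {G : Type} [Group G] {V : Type} [AddCommGroup V] [Module ℂ V]

/-- the projection to the eigenspace of `χ` -/
noncomputable def prj [Fintype G] (ρ : G →* (V →ₗ[ℂ] V)) (χ : G →* ℂ) : V →ₗ[ℂ] V :=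
  (Fintype.card G : ℂ)⁻¹ • ∑ g, χ g⁻¹ • ρ g

theorem prj_apply [Fintype G] (ρ : G →* (V →ₗ[ℂ] V)) (χ : G →* ℂ) (v : V) :
    prj ρ χ v = (Fintype.card G : ℂ)⁻¹ • ∑ g, χ g⁻¹ • ρ g v := by
  simp [prj, LinearMap.sum_apply]

theorem prj_mem [Fintype G] (ρ : G →* (V →ₗ[ℂ] V)) (χ : G →* ℂ) {U : Submodule ℂ V} {v : V}
    (h : ∀ g, ρ g v ∈ U) : prj ρ χ v ∈ U := by
  rw [prj_apply]
  exact U.smul_mem _ (U.sum_mem fun g _ => U.smul_mem _ (h g))

theorem prj_eig [Fintype G] (ρ : G →* (V →ₗ[ℂ] V)) (χ : G →* ℂ) (v : V) (h : G) :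
    ρ h (prj ρ χ v) = χ h • prj ρ χ v := by
  have h1 : ∀ g, χ g⁻¹ * χ g = 1 := fun g => by rw [← map_mul, inv_mul_cancel, map_one]
  rw [prj_apply, map_smul, map_sum, smul_comm (χ h), Finset.smul_sum (r := χ h)]
  congr 1
  refine Fintype.sum_equiv (Equiv.mulLeft h) (fun g => ρ h (χ g⁻¹ • ρ g v))
    (fun g => χ h • χ g⁻¹ • ρ g v) fun g => ?_
  have h2 : χ h * χ (h * g)⁻¹ = χ g⁻¹ := by
    rw [mul_inv_rev, map_mul, mul_comm (χ g⁻¹), ← mul_assoc, mul_comm (χ h), h1, one_mul]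
  simp only [Equiv.coe_mulLeft, map_smul, smul_smul, h2, map_mul, End.mul_apply]

theorem prj_of_eig [Fintype G] (ρ : G →* (V →ₗ[ℂ] V)) (χ : G →* ℂ) {v : V}
    (h : ∀ g, ρ g v = χ g • v) : prj ρ χ v = v := by
  have hc : (Fintype.card G : ℂ) ≠ 0 := Nat.cast_ne_zero.2 Fintype.card_ne_zero
  have h1 : ∀ g, χ g⁻¹ * χ g = 1 := fun g => by rw [← map_mul, inv_mul_cancel, map_one]
  rw [prj_apply]
  simp only [h, smul_smul, h1, one_smul, Finset.sum_const, Finset.card_univ]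
  rw [← Nat.cast_smul_eq_nsmul ℂ, smul_smul, inv_mul_cancel₀ hc, one_smul]

/-- for a finite commutative group there are finitely many characters whose projections add up to
the identity -/
theorem exists_chars [Fintype G] (hc : ∀ a b : G, a * b = b * a) :
    ∃ (ι : Type) (_ : Fintype ι) (χ : ι → G →* ℂ), ∀ (V : Type) [AddCommGroup V] [Module ℂ V]
      (ρ : G →* (V →ₗ[ℂ] V)) (v : V), ∑ i, prj ρ (χ i) v = v := by
  classical
  let _ : CommGroup G := { (inferInstance : Group G) with mul_comm := hc }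
  refine ⟨AddChar (Additive G) ℂ, inferInstance, fun ψ =>
    { toFun := fun g => ψ (Additive.ofMul g)
      map_one' := ψ.map_zero_eq_one
      map_mul' := fun a b => ψ.map_add_eq_mul (Additive.ofMul a) (Additive.ofMul b) }, ?_⟩
  intro V _ _ ρ v
  have hn : (Fintype.card G : ℂ) ≠ 0 := Nat.cast_ne_zero.2 Fintype.card_ne_zero
  simp only [prj_apply, MonoidHom.coe_mk, OneHom.coe_mk]
  rw [← Finset.smul_sum, Finset.sum_comm]
  simp only [← Finset.sum_smul, AddChar.sum_apply_eq_ite]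
  rw [Finset.sum_eq_single (1 : G)]
  · simp [smul_smul, hn]
  · intro g _ hg
    have : ¬ Additive.ofMul g⁻¹ = 0 := by simpa using hg
    rw [if_neg this, zero_smul]
  · simp

/-- for a finite commutative group an invariant subspace is spanned by its eigenvectors -/
theorem le_span_eig [Finite G] (hc : ∀ a b : G, a * b = b * a) (ρ : G →* (V →ₗ[ℂ] V))
    (U : Submodule ℂ V) (hU : ∀ g, ∀ u ∈ U, ρ g u ∈ U) :
    U ≤ Submodule.span ℂ {v | v ∈ U ∧ ∃ χ : G →* ℂ, ∀ g, ρ g v = χ g • v} := by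
  have := Fintype.ofFinite G
  obtain ⟨ι, _, χ, h⟩ := exists_chars hc
  intro u hu
  rw [← h V ρ u]
  exact Submodule.sum_mem _ fun i _ => Submodule.subset_span
    ⟨prj_mem ρ _ fun g => hU g u hu, χ i, prj_eig ρ _ u⟩

/-- a space spanned by `d` vectors and by a set `E` modulo `W` is spanned by `d` vectors of
`E ∪ {0}` modulo `W` -/
theorem pick {d : ℕ} (U W : Submodule ℂ V) (y : Fin d → V) (E : Set V) (h0 : (0 : V) ∈ E)
    (hE : ∀ v ∈ E, v ∈ U) (hy : U ≤ W ⊔ Submodule.span ℂ (Set.range y))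
    (hU : U ≤ W ⊔ Submodule.span ℂ E) :
    ∃ z : Fin d → V, (∀ i, z i ∈ E) ∧ U ≤ W ⊔ Submodule.span ℂ (Set.range z) := by
  classical
  obtain ⟨b, hbE, hb, hli⟩ := exists_linearIndependent ℂ (W.mkQ '' E)
  let T : Submodule ℂ (V ⧸ W) := Submodule.span ℂ (Set.range fun i => W.mkQ (y i))
  have hT : ∀ v ∈ U, W.mkQ v ∈ T := by
    intro v hv
    obtain ⟨w, hw, s, hs, rfl⟩ := Submodule.mem_sup.1 (hy hv)
    have h1 : W.mkQ w = 0 := (Submodule.Quotient.mk_eq_zero W).2 hw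
    rw [map_add, h1, zero_add]
    have h2 := Submodule.mem_map_of_mem (f := W.mkQ) hs
    rwa [Submodule.map_span, ← Set.range_comp] at h2
  have hbT : ∀ x : b, (x : V ⧸ W) ∈ T := fun x => by
    obtain ⟨v, hv, e⟩ := hbE x.2
    exact e ▸ hT v (hE v hv)
  have : Module.Finite ℂ T := Module.Finite.span_of_finite ℂ (Set.finite_range _)
  have hli' : LinearIndependent ℂ fun x : b => (⟨x, hbT x⟩ : T) :=
    LinearIndependent.of_comp T.subtype hli
  have : Finite b := hli'.finite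
  have := Fintype.ofFinite b
  have hcard : Fintype.card b ≤ Fintype.card (Fin d) :=
    hli'.fintype_card_le_finrank.trans (finrank_range_le_card (R := ℂ) fun i => W.mkQ (y i))
  obtain ⟨ι⟩ := Function.Embedding.nonempty_of_card_le hcard
  choose r hr1 hr2 using fun x : b => hbE x.2
  refine ⟨Function.extend ι r 0, fun i => ?_, fun u hu => ?_⟩
  · by_cases hi : ∃ x, ι x = i
    · obtain ⟨x, rfl⟩ := hi
      rw [ι.injective.extend_apply]
      exact hr1 x
    · rw [Function.extend_apply' _ _ _ hi]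
      exact h0
  · obtain ⟨w, hw, s, hs, rfl⟩ := Submodule.mem_sup.1 (hU hu)
    have h2 := Submodule.mem_map_of_mem (f := W.mkQ) hs
    rw [Submodule.map_span, ← hb] at h2
    have h3 : Submodule.span ℂ b ≤
        (Submodule.span ℂ (Set.range (Function.extend ι r 0))).map W.mkQ := by
      refine Submodule.span_le.2 fun x hx => ⟨r ⟨x, hx⟩, Submodule.subset_span
        ⟨ι ⟨x, hx⟩, ι.injective.extend_apply _ _ _⟩, hr2 ⟨x, hx⟩⟩
    obtain ⟨s', hs', e⟩ := h3 h2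
    have h4 : s - s' ∈ W := (Submodule.Quotient.eq W).1 e.symm
    exact Submodule.mem_sup.2 ⟨w + (s - s'), W.add_mem hw h4, s', hs', by abel⟩

/-- eigenvectors that span `U` modulo `W`, for a finite commutative group -/
theorem comm_mod [Finite G] (hc : ∀ a b : G, a * b = b * a) (ρ : G →* (V →ₗ[ℂ] V))
    (U W : Submodule ℂ V) {d : ℕ} (y : Fin d → V) (hU : ∀ g, ∀ u ∈ U, ρ g u ∈ U)
    (hy : U ≤ W ⊔ Submodule.span ℂ (Set.range y)) :
    ∃ (z : Fin d → V) (χ : Fin d → G →* ℂ), (∀ i, z i ∈ U) ∧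
      U ≤ W ⊔ Submodule.span ℂ (Set.range z) ∧ ∀ i g, ρ g (z i) = χ i g • z i := by
  obtain ⟨z, h1, h2⟩ := pick U W y {v | v ∈ U ∧ ∃ χ : G →* ℂ, ∀ g, ρ g v = χ g • v}
    ⟨U.zero_mem, 1, fun g => by simp⟩ (fun v hv => hv.1) hy
    ((le_span_eig hc ρ U hU).trans le_sup_right)
  choose χ hχ using fun i => (h1 i).2
  exact ⟨z, χ, fun i => (h1 i).1, h2, hχ⟩

end lin

section ring

variable {G : Type} [Group G] {O : Type} [CommRing O] [Algebra ℂ O]

/-- **Eigen-generators for a commutative group**, modulo `W ⊇ m I` -/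
theorem comm_ideal [Finite G] (hc : ∀ a b : G, a * b = b * a) (α : G →* (O ≃ₐ[ℂ] O))
    (m I W : Ideal O) {d : ℕ} (y : Fin d → O) (hres : ∀ a, ∃ c : ℂ, a - algebraMap ℂ O c ∈ m)
    (hI : ∀ g, ∀ a ∈ I, α g a ∈ I) (hy : ∀ i, y i ∈ I) (hW : m * I ≤ W)
    (h : I ≤ W ⊔ Ideal.span (Set.range y)) :
    ∃ (z : Fin d → O) (χ : Fin d → G →* ℂ), (∀ i, z i ∈ I) ∧
      I ≤ W ⊔ Ideal.span (Set.range z) ∧ ∀ i g, α g (z i) = χ i g • z i := by
  have a2 : ∀ g, ∀ u ∈ I.restrictScalars ℂ, rep α g u ∈ I.restrictScalars ℂ := hI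
  have a3 : I.restrictScalars ℂ ≤ W.restrictScalars ℂ ⊔ Submodule.span ℂ (Set.range y) := by
    intro u hu
    obtain ⟨w, hw, s, hs, rfl⟩ := Submodule.mem_sup.1 (h hu)
    obtain ⟨r, rfl⟩ := Ideal.mem_span_range_iff_exists_fun.1 hs
    choose c hc using hres
    refine Submodule.mem_sup.2 ⟨w + ∑ i, (r i - algebraMap ℂ O (c (r i))) * y i,
      add_mem hw (Ideal.sum_mem _ fun i _ => hW (Ideal.mul_mem_mul (hc _) (hy i))),
      ∑ i, c (r i) • y i, (Submodule.mem_span_range_iff_exists_fun ℂ).2 ⟨_, rfl⟩, ?_⟩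
    simp only [sub_mul, Finset.sum_sub_distrib, Algebra.smul_def]
    abel
  obtain ⟨z, χ, h1, h2, h3⟩ := comm_mod hc (rep α) (I.restrictScalars ℂ) (W.restrictScalars ℂ) y
    a2 a3
  have h5 : I ≤ W ⊔ Ideal.span (Set.range z) := le_ideal_of W I z h2
  have h6 : ∀ i, z i ∈ I := h1
  exact ⟨z, χ, h6, h5, fun i a => (rep_apply α a (z i)).symm.trans (h3 i a)⟩

theorem max_stable [IsLocalRing O] (σ : O ≃ₐ[ℂ] O) :
    ∀ a ∈ IsLocalRing.maximalIdeal O, σ a ∈ IsLocalRing.maximalIdeal O := by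
  intro a ha
  rw [IsLocalRing.mem_maximalIdeal, mem_nonunits_iff] at ha ⊢
  exact fun h => ha (by simpa using h.map σ.symm)

/-- **Eigen-generators in a local ring**, for a commutative group -/
theorem comm_local [Finite G] [IsLocalRing O] (hc : ∀ a b : G, a * b = b * a)
    (α : G →* (O ≃ₐ[ℂ] O)) {d : ℕ} (y : Fin d → O)
    (hres : ∀ a, ∃ c : ℂ, a - algebraMap ℂ O c ∈ IsLocalRing.maximalIdeal O)
    (hy : ∀ g i, α g (y i) ∈ Ideal.span (Set.range y)) :
    ∃ (z : Fin d → O) (χ : Fin d → G →* ℂ), Ideal.span (Set.range z) = Ideal.span (Set.range y) ∧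
      ∀ i g, α g (z i) = χ i g • z i := by
  have hI : ∀ g, ∀ a ∈ Ideal.span (Set.range y), α g a ∈ Ideal.span (Set.range y) := by
    intro g a ha
    obtain ⟨r, rfl⟩ := Ideal.mem_span_range_iff_exists_fun.1 ha
    rw [map_sum]
    exact Ideal.sum_mem _ fun i _ => by rw [map_mul]; exact Ideal.mul_mem_left _ _ (hy g i)
  obtain ⟨z, χ, h2, h3, h4⟩ := comm_ideal hc α (IsLocalRing.maximalIdeal O) _ _ y hres hI
    (fun i => Ideal.subset_span ⟨i, rfl⟩) le_rfl le_sup_right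
  exact ⟨z, χ, span_eq_of _ (Submodule.fg_span (Set.finite_range y)) z h2 h3, h4⟩

/-- an endomorphism that fixes generators of `m` modulo the ideal `I` is the identity modulo
`I + m ^ k` for all `k` -/
theorem fix_mod (σ : O →ₐ[ℂ] O) (m I : Ideal O) (hres : ∀ a, ∃ c : ℂ, a - algebraMap ℂ O c ∈ m)
    {ι : Type} (z : ι → O) (hz : ∀ i, z i ∈ m) (hm : m ≤ (m * m ⊔ I) ⊔ Ideal.span (Set.range z))
    (hσm : ∀ a ∈ m, σ a ∈ m) (hI : ∀ a ∈ I, σ a ∈ I) (hσ : ∀ i, σ (z i) - z i ∈ I) (k : ℕ) :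
    (∀ a, σ a - a ∈ I ⊔ m ^ (k + 1)) ∧ ∀ a ∈ m, σ a - a ∈ I ⊔ m ^ (k + 2) := by
  have hm' : ∀ k : ℕ, (∀ a, σ a - a ∈ I ⊔ m ^ (k + 1)) → (∀ a ∈ m, σ a - a ∈ I ⊔ m ^ (k + 1)) →
      ∀ a ∈ m, σ a - a ∈ I ⊔ m ^ (k + 2) := by
    intro k h1 _ a ha
    have hs : ∀ b ∈ m, σ b ∈ I ⊔ m := fun b hb => by
      have h3 : I ⊔ m ^ (k + 1) ≤ I ⊔ m := sup_le_sup_left (Ideal.pow_le_self k.succ_ne_zero) _
      simpa using add_mem (h3 (h1 b)) (Ideal.mem_sup_right hb)
    have hp : ∀ x ∈ I ⊔ m ^ (k + 1), ∀ y ∈ I ⊔ m, x * y ∈ I ⊔ m ^ (k + 2) := by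
      intro x hx y hy
      have h4 : (I ⊔ m ^ (k + 1)) * (I ⊔ m) ≤ I ⊔ m ^ (k + 2) := by
        rw [Ideal.sup_mul, Ideal.mul_sup, Ideal.mul_sup, ← pow_succ]
        exact sup_le (sup_le (Ideal.mul_le_right.trans le_sup_left)
          (Ideal.mul_le_left.trans le_sup_left))
          (sup_le (Ideal.mul_le_right.trans le_sup_left) le_sup_right)
      exact h4 (Ideal.mul_mem_mul hx hy)
    obtain ⟨w, hw, s, hs', rfl⟩ := Submodule.mem_sup.1 (hm ha)
    obtain ⟨w₁, hw₁, w₂, hw₂, rfl⟩ := Submodule.mem_sup.1 hw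
    have e : σ (w₁ + w₂ + s) - (w₁ + w₂ + s) = (σ w₁ - w₁) + (σ w₂ - w₂) + (σ s - s) := by
      rw [map_add, map_add]; ring
    rw [e]
    refine add_mem (add_mem ?_ (Ideal.mem_sup_left (sub_mem (hI _ hw₂) hw₂))) ?_
    · refine Submodule.mul_induction_on hw₁ (fun x hx y hy => ?_) fun x y hx hy => ?_
      · have e : σ (x * y) - x * y = (σ x - x) * σ y + (σ y - y) * x := by rw [map_mul]; ring
        rw [e]
        exact add_mem (hp _ (h1 x) _ (hs y hy)) (hp _ (h1 y) _ (Ideal.mem_sup_right hx))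
      · have e : σ (x + y) - (x + y) = (σ x - x) + (σ y - y) := by rw [map_add]; ring
        rw [e]
        exact add_mem hx hy
    · refine Submodule.span_induction (p := fun s _ => ∀ r : O, σ (r * s) - r * s ∈ I ⊔ m ^ (k + 2))
        ?_ (by simp) ?_ ?_ hs' 1 |> fun h => by simpa using h
      · rintro _ ⟨i, rfl⟩ r
        have e : σ (r * z i) - r * z i = (σ r - r) * z i + σ r * (σ (z i) - z i) := by
          rw [map_mul]; ring
        rw [e]
        exact add_mem (hp _ (h1 r) _ (Ideal.mem_sup_right (hz i)))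
          (Ideal.mem_sup_left (I.mul_mem_left _ (hσ i)))
      · intro x y _ _ hx hy r
        have e : σ (r * (x + y)) - r * (x + y) = (σ (r * x) - r * x) + (σ (r * y) - r * y) := by
          rw [mul_add, map_add]; ring
        rw [e]
        exact add_mem (hx r) (hy r)
      · intro c x _ hx r
        rw [smul_eq_mul, ← mul_assoc]
        exact hx _
  have hall : ∀ k : ℕ, (∀ a ∈ m, σ a - a ∈ I ⊔ m ^ (k + 1)) → ∀ a, σ a - a ∈ I ⊔ m ^ (k + 1) := by
    intro k h a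
    obtain ⟨c, hc⟩ := hres a
    simpa using h _ hc
  induction k with
  | zero =>
    have h0 : ∀ a ∈ m, σ a - a ∈ I ⊔ m ^ (0 + 1) := fun a ha =>
      Ideal.mem_sup_right (by simpa using sub_mem (hσm a ha) ha)
    exact ⟨hall 0 h0, hm' 0 (hall 0 h0) h0⟩
  | succ k ih => exact ⟨hall _ ih.2, hm' _ (hall _ ih.2) ih.2⟩

/-- in a noetherian local ring with residue field `ℂ`: an automorphism that fixes generators of
the cotangent space of `O / I` modulo `I` is the identity modulo `I` -/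
theorem fix_local [IsLocalRing O] [IsNoetherianRing O] (σ : O ≃ₐ[ℂ] O) (I : Ideal O)
    (hres : ∀ a, ∃ c : ℂ, a - algebraMap ℂ O c ∈ IsLocalRing.maximalIdeal O)
    {ι : Type} (z : ι → O) (hz : ∀ i, z i ∈ IsLocalRing.maximalIdeal O)
    (hm : IsLocalRing.maximalIdeal O ≤
      (IsLocalRing.maximalIdeal O * IsLocalRing.maximalIdeal O ⊔ I) ⊔ Ideal.span (Set.range z))
    (hI : ∀ a ∈ I, σ a ∈ I) (hσ : ∀ i, σ (z i) - z i ∈ I) (a : O) : σ a - a ∈ I := by
  have h := fun k => (fix_mod (σ : O →ₐ[ℂ] O) _ I hres z hz hm (max_stable σ) hI hσ k).1 a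
  have hK := Ideal.iInf_pow_smul_eq_bot_of_isLocalRing (M := O ⧸ I)
    (I := IsLocalRing.maximalIdeal O) (IsLocalRing.maximalIdeal.isMaximal O).ne_top
  rw [← Ideal.Quotient.eq_zero_iff_mem, ← Submodule.mem_bot O, ← hK, Submodule.mem_iInf]
  intro k
  obtain ⟨u, hu, w, hw, e⟩ := Submodule.mem_sup.1 (h k)
  have e1 : Ideal.Quotient.mk I (σ a - a) = w • (1 : O ⧸ I) := by
    have e2 : σ a - a = u + w := e.symm
    rw [e2, map_add, Ideal.Quotient.eq_zero_iff_mem.2 hu, zero_add, Algebra.smul_def, mul_one]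
    rfl
  rw [e1]
  exact Submodule.smul_mem_smul (Ideal.pow_le_pow_right k.le_succ hw) Submodule.mem_top

end ring

/-- **Jordan on `O / I`**: `O` noetherian local with residue field `ℂ`, `I` a stable ideal, the
action on `O / I` faithful, the cotangent space of `O / I` spanned by `d` elements.  Then a subgroup
of bounded index is commutative. -/
theorem comm_sub (d : ℕ) : ∃ J : ℕ, 0 < J ∧ ∀ (G : Type) [Group G] [Finite G] (O : Type)
    [CommRing O] [IsLocalRing O] [IsNoetherianRing O] [Algebra ℂ O] (α : G →* (O ≃ₐ[ℂ] O))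
    (I : Ideal O) (y : Fin d → O),
    (∀ a, ∃ c : ℂ, a - algebraMap ℂ O c ∈ IsLocalRing.maximalIdeal O) →
    (∀ g, ∀ a ∈ I, α g a ∈ I) → (∀ g, (∀ a, α g a - a ∈ I) → g = 1) → I ≠ ⊤ →
    (∀ i, y i ∈ IsLocalRing.maximalIdeal O) → IsLocalRing.maximalIdeal O ≤
      (IsLocalRing.maximalIdeal O * IsLocalRing.maximalIdeal O ⊔ I) ⊔ Ideal.span (Set.range y) →
    ∃ A : Subgroup G, A.index ≤ J ∧ ∀ a b : A, a * b = b * a := by
  obtain ⟨J, hJ, key⟩ := jordan_mod d
  refine ⟨J, hJ, ?_⟩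
  intro G _ _ O _ _ _ _ α I y hres hI hf hI' hy h
  set m := IsLocalRing.maximalIdeal O with hmd
  have hm : ∀ g, ∀ a ∈ m, α g a ∈ m := fun g => max_stable (α g)
  have a0 : m * m ⊔ I ≤ m := sup_le Ideal.mul_le_right (IsLocalRing.le_maximalIdeal hI')
  have a1 : (m * m ⊔ I).restrictScalars ℂ ≤ m.restrictScalars ℂ := fun _ ha => a0 ha
  have a2 : ∀ g, ∀ u ∈ m.restrictScalars ℂ, rep α g u ∈ m.restrictScalars ℂ := hm
  have a3 : ∀ g, ∀ u ∈ (m * m ⊔ I).restrictScalars ℂ,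
      rep α g u ∈ (m * m ⊔ I).restrictScalars ℂ := by
    intro g u hu
    obtain ⟨w, hw, s, hs, rfl⟩ := Submodule.mem_sup.1 (show u ∈ m * m ⊔ I from hu)
    rw [rep_apply, map_add]
    exact Submodule.add_mem_sup (mul_stable α hm hm g w hw) (hI g s hs)
  have a4 : ∀ i, y i ∈ m.restrictScalars ℂ := hy
  have a5 : m.restrictScalars ℂ ≤ (m * m ⊔ I).restrictScalars ℂ ⊔
      Submodule.span ℂ (Set.range y) := by
    intro u hu
    obtain ⟨w, hw, s, hs, rfl⟩ := Submodule.mem_sup.1 (h hu)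
    obtain ⟨r, rfl⟩ := Ideal.mem_span_range_iff_exists_fun.1 hs
    choose c hc using hres
    refine Submodule.mem_sup.2 ⟨w + ∑ i, (r i - algebraMap ℂ O (c (r i))) * y i,
      add_mem hw (Ideal.sum_mem _ fun i _ => Ideal.mem_sup_left (Ideal.mul_mem_mul (hc _) (hy i))),
      ∑ i, c (r i) • y i, (Submodule.mem_span_range_iff_exists_fun ℂ).2 ⟨_, rfl⟩, ?_⟩
    simp only [sub_mul, Finset.sum_sub_distrib, Algebra.smul_def]
    abel
  obtain ⟨A, z, χ, h1, h2, h3, h4⟩ := key G O (rep α) _ _ y a1 a2 a3 a4 a5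
  have h5 : m ≤ (m * m ⊔ I) ⊔ Ideal.span (Set.range z) := le_ideal_of _ m z h3
  have h6 : ∀ i, z i ∈ m := h2
  have h7 : ∀ i (a : A), α a (z i) = χ i a • z i := fun i a =>
    (rep_apply α a (z i)).symm.trans (h4 i a)
  refine ⟨A, h1, fun a b => ?_⟩
  have h8 : ((a * b * (b * a)⁻¹ : A) : G) = 1 := by
    refine hf _ (fix_local _ I hres z h6 h5 (hI _) fun i => ?_)
    have h9 : χ i (a * b * (b * a)⁻¹) = 1 := by
      rw [map_mul, map_mul, mul_comm (χ i a), ← map_mul, ← map_mul, mul_inv_cancel, map_one]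
    rw [h7, h9, one_smul, sub_self]
    exact I.zero_mem
  exact mul_inv_eq_one.1 (Subtype.ext h8)

end Vale.Agent.P283R.Gr
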