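import Vale.Agent.P287D.Cb.Fr
import Mathlib.RingTheory.Smooth.Field
import Mathlib.RingTheory.Etale.Kaehler
import Mathlib.RingTheory.LocalRing.Module
import Mathlib.RingTheory.Ideal.Cotangent
import Mathlib.RingTheory.LocalRing.ResidueField.Basic

/-!
# The embedding dimension at a point of a smooth variety
-/

open Set IsLocalRing TensorProduct Module
open Vale.Agent.P287D

namespace Vale.Agent.P283R.Gr

/-- the differentials of a function field of dimension `N` have dimension at most `N` -/
theorem finrank_kd {F : Type} [Field F] [Algebra ℂ F] {N : ℕ} (hF : FF F N) :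
    finrank F (Ω[F⁄ℂ]) ≤ N := by
  obtain ⟨y, hy, -⟩ := id hF
  obtain ⟨D, hD⟩ := Cb.fr_of hF hy
  rw [← Subspace.dual_finrank_eq]
  let Φ : Module.Dual F (Ω[F⁄ℂ]) →ₗ[F] (Fin N → F) :=
    LinearMap.pi fun j => Module.Dual.eval F _ (KaehlerDifferential.D ℂ F (y j))
  have hΦ : Function.Injective Φ := by
    rw [injective_iff_map_eq_zero]
    intro l hl
    have h1 : ∀ a, l (KaehlerDifferential.D ℂ F a) = 0 := by
      intro a
      have h2 := Cb.expand (Cb.dr_of (l.compDer (KaehlerDifferential.D ℂ F)))
        (fun c => Derivation.map_algebraMap _ c) hD a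
      have h3 : ∀ j, l.compDer (KaehlerDifferential.D ℂ F) (y j) = 0 := fun j => congrFun hl j
      simpa [h3] using h2
    refine LinearMap.ext_on (KaehlerDifferential.span_range_derivation ℂ F) ?_
    rintro _ ⟨a, rfl⟩
    exact h1 a
  simpa using LinearMap.finrank_le_finrank_of_injective hΦ

variable {O : Type} [CommRing O] [IsLocalRing O]

/-- independent cotangent vectors and a transcendence basis of the residue field: at most `N` -/
theorem cnt [Algebra ℂ O] [Algebra.FormallySmooth ℂ O] [Algebra.EssFiniteType ℂ O]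
    {F : Type} [Field F] [Algebra O F] [Algebra ℂ F] [IsScalarTower ℂ O F] [IsFractionRing O F]
    {N e r : ℕ} (hF : FF F N) (x : Fin e → O) (hx : ∀ j, x j ∈ maximalIdeal O)
    (hi : ∀ c : Fin e → O, ∑ j, c j * x j ∈ maximalIdeal O ^ 2 → ∀ j, c j ∈ maximalIdeal O)
    (t : Fin r → O) (ht : IsTranscendenceBasis ℂ fun l => residue O (t l)) : e + r ≤ N := by
  classical
  have hs : Function.Surjective (algebraMap O (ResidueField O)) := residue_surjective
  have : Algebra.EssFiniteType ℂ (ResidueField O) :=
    .of_surjective (IsScalarTower.toAlgHom ℂ O (ResidueField O)) hs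
  have hsm : Algebra.FormallySmooth ℂ (ResidueField O) := inferInstance
  obtain ⟨L, hL⟩ := (Algebra.FormallySmooth.iff_split_injection (R := ℂ) hs).1 hsm
  have hinj : Function.Injective (KaehlerDifferential.kerCotangentToTensor ℂ O (ResidueField O)) :=
    Function.LeftInverse.injective (g := L) fun u => LinearMap.congr_fun hL u
  have hk : RingHom.ker (algebraMap O (ResidueField O)) = maximalIdeal O := ker_residue
  choose D hD using fun i => P297.H927.exists_derivation_of_basis ht
    fun j => if i = j then (1 : ResidueField O) else 0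
  let v : Fin e ⊕ Fin r → ResidueField O ⊗[O] Ω[O⁄ℂ] := fun i =>
    1 ⊗ₜ KaehlerDifferential.D ℂ O (Sum.elim x t i)
  have hv : LinearIndependent (ResidueField O) v := by
    rw [Fintype.linearIndependent_iff]
    intro g hg
    rw [Fintype.sum_sum_type] at hg
    have h1 : ∀ l, g (.inr l) = 0 := by
      intro l
      have h2 := congrArg ((D l).liftKaehlerDifferential ∘ₗ
        KaehlerDifferential.mapBaseChange ℂ O (ResidueField O)) hg
      have h3 : ∀ a : O, ((D l).liftKaehlerDifferential ∘ₗ
          KaehlerDifferential.mapBaseChange ℂ O (ResidueField O))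
            (1 ⊗ₜ KaehlerDifferential.D ℂ O a) = D l (residue O a) := fun a => by
        simp [KaehlerDifferential.mapBaseChange_tmul]
      have h4 : ∀ j, residue O (x j) = 0 := fun j => (residue_eq_zero_iff _).2 (hx j)
      simp only [map_add, map_sum, map_smul, v, h3, Sum.elim_inl, Sum.elim_inr, h4, map_zero,
        hD] at h2
      simpa using h2
    simp only [h1, zero_smul, Finset.sum_const_zero, add_zero] at hg
    choose c hc using fun j => hs (g (.inl j))
    have h5 : ∑ j, c j * x j ∈ RingHom.ker (algebraMap O (ResidueField O)) :=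
      hk ▸ Ideal.sum_mem _ fun j _ => Ideal.mul_mem_left _ _ (hx j)
    have h6 : KaehlerDifferential.kerCotangentToTensor ℂ O (ResidueField O)
        (Ideal.toCotangent _ ⟨_, h5⟩) = 0 := by
      rw [KaehlerDifferential.kerCotangentToTensor_toCotangent, ← hg, map_sum, tmul_sum]
      refine Finset.sum_congr rfl fun j _ => ?_
      have h7 : x j • (1 : ResidueField O) = 0 := by
        rw [Algebra.smul_def, mul_one]
        exact (residue_eq_zero_iff _).2 (hx j)
      rw [Derivation.leibniz, tmul_add, ← smul_tmul, ← smul_tmul, h7, zero_tmul, add_zero, ← hc,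
        algebraMap_smul]
      rfl
    have h8 : ∑ j, c j * x j ∈ RingHom.ker (algebraMap O (ResidueField O)) ^ 2 :=
      (Ideal.toCotangent_eq_zero _ _).1 (hinj (h6.trans (map_zero _).symm))
    rw [hk] at h8
    rintro (j | l)
    · rw [← hc]
      exact (residue_eq_zero_iff _).2 (hi c h8 j)
    · exact h1 l
  have : Module.Free O (Ω[O⁄ℂ]) := Module.free_of_flat_of_isLocalRing
  have : Algebra.FormallyEtale O F := .of_isLocalization (nonZeroDivisors O)
  have h9 := hv.fintype_card_le_finrank
  rw [Module.finrank_baseChange, ← Module.finrank_baseChange (R := F),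
    (KaehlerDifferential.tensorKaehlerEquivOfFormallyEtale ℂ O F).finrank_eq] at h9
  simpa using h9.trans (finrank_kd hF)

/-- a generating set of the maximal ideal contains a basis of the cotangent space -/
theorem pick_basis [IsNoetherianRing O] (E : Set O) (hE : Ideal.span E = maximalIdeal O) :
    ∃ (e : ℕ) (x : Fin e → O), (∀ j, x j ∈ E) ∧ Ideal.span (range x) = maximalIdeal O ∧
      ∀ c : Fin e → O, ∑ j, c j * x j ∈ maximalIdeal O ^ 2 → ∀ j, c j ∈ maximalIdeal O := by
  classical
  have hsp : ∀ s : Set (maximalIdeal O), Submodule.span O s = ⊤ ↔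
      Ideal.span ((↑) '' s : Set O) = maximalIdeal O := fun s => by
    rw [← (Submodule.map_injective_of_injective (maximalIdeal O).injective_subtype).eq_iff,
      Submodule.map_span, Submodule.map_top, Submodule.range_subtype]
    rfl
  let E' : Set (maximalIdeal O) := {u | (u : O) ∈ E}
  have h1 : ((↑) '' E' : Set O) = E := by
    refine Subset.antisymm ?_ fun a ha => ⟨⟨a, hE ▸ Ideal.subset_span ha⟩, ha, rfl⟩
    rintro _ ⟨u, hu, rfl⟩
    exact hu
  have h2 := CotangentSpace.span_image_eq_top_iff.2 ((hsp E').2 (h1 ▸ hE))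
  obtain ⟨b, hb, hbs, hli⟩ := exists_linearIndependent (ResidueField O)
    ((maximalIdeal O).toCotangent '' E')
  have : Finite b := hli.finite
  have := Fintype.ofFinite b
  choose ρ hρ1 hρ2 using fun u : b => hb u.2
  let ι := (Fintype.equivFin b).symm
  refine ⟨_, fun j => ρ (ι j), fun j => hρ1 _, ?_, fun c hc j => ?_⟩
  · have h3 : Submodule.span (ResidueField O)
        ((maximalIdeal O).toCotangent '' range fun j => ρ (ι j)) = ⊤ := by
      rw [eq_top_iff, ← h2, ← hbs]
      refine Submodule.span_mono fun u hu => ⟨ρ ⟨u, hu⟩, ⟨ι.symm ⟨u, hu⟩, by simp⟩, hρ2 _⟩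
    have h4 := (hsp _).1 (CotangentSpace.span_image_eq_top_iff.1 h3)
    rwa [← range_comp] at h4
  · have h5 : (maximalIdeal O).toCotangent (∑ j, c j • ρ (ι j)) = 0 := by
      rw [Ideal.toCotangent_eq_zero]
      simpa using hc
    have h6 := Fintype.linearIndependent_iff.1 (hli.comp ι ι.injective)
      (fun j => algebraMap O (ResidueField O) (c j)) (by
        rw [← h5, map_sum]
        exact Finset.sum_congr rfl fun j _ => by
          rw [map_smul, hρ2, algebraMap_smul]
          rfl) j
    exact (residue_eq_zero_iff _).1 h6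

end Vale.Agent.P283R.Gr
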