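import Mathlib.Algebra.Algebra.Equiv
import Mathlib.Algebra.Algebra.Subalgebra.Basic
import Mathlib.GroupTheory.Index
import Mathlib.RingTheory.Ideal.Prime
import Mathlib.RingTheory.Ideal.BigOperators
import Mathlib.Tactic

/-!
# P283R: the trace and the norm of semi-invariants

A finite group `G` acts on the ring `L`; `χ` is a character with invariant values.
-/

namespace Vale.Agent.P283R.Gr

open Finset

variable {k L G : Type*} [CommSemiring k] [CommRing L] [Algebra k L] [Group G]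
  (α : G →* (L ≃ₐ[k] L)) (χ : G →* L)

theorem act_mul (g h : G) (x : L) : α g (α h x) = α (g * h) x := by
  rw [map_mul]; rfl

theorem act_one (x : L) : α 1 x = x := by rw [map_one]; rfl

theorem chi_inv (g : G) : χ g * χ g⁻¹ = 1 := by rw [← map_mul, mul_inv_cancel, map_one]

section trace

variable [Fintype G]

/-- the trace to the semi-invariants (Reynolds operator without the division) -/
def rey (x : L) : L := ∑ g, χ g⁻¹ * α g x

theorem rey_add (x y : L) : rey α χ (x + y) = rey α χ x + rey α χ y := by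
  simp only [rey, map_add, mul_add, sum_add_distrib]

theorem rey_zero : rey α χ 0 = 0 := by simp [rey]

theorem rey_smul (c : k) (x : L) : rey α χ (c • x) = c • rey α χ x := by
  simp only [rey, map_smul, mul_smul_comm, smul_sum]

theorem rey_sum {ι : Type*} (s : Finset ι) (x : ι → L) :
    rey α χ (∑ i ∈ s, x i) = ∑ i ∈ s, rey α χ (x i) := by
  simp only [rey, map_sum, mul_sum]
  exact sum_comm

variable {α χ}

theorem rey_semi (hχ : ∀ g h, α g (χ h) = χ h) (x : L) (h : G) :
    α h (rey α χ x) = χ h * rey α χ x := by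
  rw [rey, map_sum, mul_sum, ← Equiv.sum_comp (Equiv.mulLeft h)
    (fun g => χ h * (χ g⁻¹ * α g x))]
  refine sum_congr rfl fun g _ => ?_
  rw [map_mul, hχ, act_mul, Equiv.coe_mulLeft, mul_inv_rev, map_mul χ]
  linear_combination (-(χ g⁻¹ * α (h * g) x)) * chi_inv χ h

theorem rey_inv_mul {a : L} (ha : ∀ g, α g a = a) (x : L) : rey α χ (a * x) = a * rey α χ x := by
  simp only [rey, map_mul, ha, mul_sum]
  exact sum_congr rfl fun g _ => by ring

theorem rey_of_semi {x : L} (hx : ∀ g, α g x = χ g * x) :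
    rey α χ x = (Fintype.card G : L) * x := by
  have : ∀ g, χ g⁻¹ * α g x = x := fun g => by
    rw [hx]; linear_combination x * chi_inv χ g
  simp [rey, this]

theorem rey_mem {W : AddSubgroup L} {x : L} (h : ∀ g, χ g⁻¹ * α g x ∈ W) : rey α χ x ∈ W :=
  W.sum_mem fun g _ => h g

/-- the combinations of the traces which kill the elements of `H` -/
theorem kill {R : Subring L} (hR : ∀ g, ∀ a ∈ R, α g a ∈ R) {W : AddSubgroup L}
    (hW : ∀ a ∈ R, ∀ w ∈ W, a * w ∈ W) {s : L} (hs : ∀ a ∈ R, rey α χ (a * s) ∈ W)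
    (x : G → L) (hx : ∀ h, x h ∈ R) (H : Finset G) :
    ∀ a ∈ R, ∑ g, (∏ h ∈ H, (α h (x h) - α g (x h))) * (χ g⁻¹ * α g (a * s)) ∈ W := by
  classical
  induction H using Finset.induction_on with
  | empty => intro a ha; simpa [rey] using hs a ha
  | insert h H hh ih =>
    intro a ha
    have e : ∑ g, (∏ h ∈ insert h H, (α h (x h) - α g (x h))) * (χ g⁻¹ * α g (a * s)) =
        α h (x h) * ∑ g, (∏ h ∈ H, (α h (x h) - α g (x h))) * (χ g⁻¹ * α g (a * s)) -
        ∑ g, (∏ h ∈ H, (α h (x h) - α g (x h))) * (χ g⁻¹ * α g (x h * a * s)) := by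
      rw [mul_sum, ← sum_sub_distrib]
      refine sum_congr rfl fun g _ => ?_
      rw [prod_insert hh]
      simp only [map_mul]
      ring
    rw [e]
    exact W.sub_mem (hW _ (hR _ _ (hx h)) _ (ih a ha)) (ih _ (R.mul_mem (hx h) ha))

/-- **TRACE**: `p` is a prime of the stable subring `R` (of residue characteristic zero) and `s` is
semi-invariant for the inertia group of `p`; then near `p` the element `s` is a combination of the
traces of the multiples of `t * s` -/
theorem trace {R : Subring L} (hR : ∀ g, ∀ a ∈ R, α g a ∈ R) {p : AddSubgroup L}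
    (p1 : ∀ a ∈ R, ∀ w ∈ p, a * w ∈ p) (p2 : ∀ a ∈ R, ∀ b ∈ R, a * b ∈ p → a ∈ p ∨ b ∈ p)
    (p3 : ∀ n : ℕ, n ≠ 0 → (n : L) ∉ p) {s t : L} (t1 : t ∈ R) (t2 : t ∉ p)
    (hs : ∀ g, (∀ a ∈ R, α g a - a ∈ p) → α g s = χ g * s) {W : AddSubgroup L}
    (hW : ∀ a ∈ R, ∀ w ∈ W, a * w ∈ W) (hr : ∀ a ∈ R, rey α χ (a * t * s) ∈ W) :
    ∃ δ ∈ R, δ ∉ p ∧ δ * s ∈ W := by
  classical
  have hx : ∀ h : G, ∃ x ∈ R, (¬ ∀ a ∈ R, α h a - a ∈ p) → α h x - x ∉ p := fun h => by
    by_cases e : ∀ a ∈ R, α h a - a ∈ p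
    · exact ⟨0, R.zero_mem, fun n => (n e).elim⟩
    · push Not at e
      obtain ⟨a, ha, e⟩ := e
      exact ⟨a, ha, fun _ => e⟩
  choose x x1 x2 using hx
  set H : Finset G := univ.filter fun h => ¬ ∀ a ∈ R, α h a - a ∈ p with hH
  set I : Finset G := univ.filter fun h => ∀ a ∈ R, α h a - a ∈ p with hI
  have m : ∀ (T : Finset G) (g : G), ∏ h ∈ T, (α h (x h) - α g (x h)) ∈ R := fun T g =>
    R.prod_mem fun h _ => R.sub_mem (hR _ _ (x1 h)) (hR _ _ (x1 h))
  have m0 : ∀ T : Finset G, ∏ h ∈ T, (α h (x h) - x h) ∈ R := fun T =>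
    R.prod_mem fun h _ => R.sub_mem (hR _ _ (x1 h)) (x1 h)
  have c : ∀ g ∈ I, ∀ T : Finset G, (∏ h ∈ T, (α h (x h) - α g (x h))) * α g t -
      (∏ h ∈ T, (α h (x h) - x h)) * t ∈ p := fun g hg T => by
    induction T using Finset.induction_on with
    | empty => simpa using (mem_filter.1 hg).2 _ t1
    | insert h T hh ih =>
      rw [prod_insert hh, prod_insert hh]
      have := p.sub_mem (p1 _ (R.sub_mem (hR h _ (x1 h)) (x1 h)) _ ih)
        (p1 _ (R.mul_mem (m T g) (hR g _ t1)) _ ((mem_filter.1 hg).2 _ (x1 h)))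
      refine (congrArg (· ∈ p) ?_).mp this
      ring
  have n : ∀ T : Finset G, T ⊆ H → ∏ h ∈ T, (α h (x h) - x h) ∉ p := fun T => by
    induction T using Finset.induction_on with
    | empty => intro _; simpa using p3 1 one_ne_zero
    | insert h T hh ih =>
      intro hT e
      rw [prod_insert hh] at e
      rcases p2 _ (R.sub_mem (hR h _ (x1 h)) (x1 h)) _ (m0 T) e with e | e
      · exact x2 h (mem_filter.1 (hT (mem_insert_self _ _))).2 e
      · exact ih ((subset_insert _ _).trans hT) e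
  refine ⟨∑ g ∈ I, (∏ h ∈ H, (α h (x h) - α g (x h))) * α g t,
    R.sum_mem fun g _ => R.mul_mem (m H g) (hR g _ t1), fun e => ?_, ?_⟩
  · have := p.sub_mem e (p.sum_mem fun g hg => c g hg H)
    rw [sum_sub_distrib, sub_sub_cancel, sum_const, nsmul_eq_mul] at this
    rcases p2 _ (natCast_mem R _) _ (R.mul_mem (m0 H) t1) this with e | e
    · refine p3 _ (card_ne_zero.2 ⟨1, mem_filter.2 ⟨mem_univ _, fun a _ => ?_⟩⟩) e
      rw [act_one, sub_self]; exact p.zero_mem
    · exact (p2 _ (m0 H) _ t1 e).elim (n H subset_rfl) t2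
  · have := kill hR hW (s := t * s) (fun a ha => mul_assoc a t s ▸ hr a ha) x x1 H 1 R.one_mem
    rw [← sum_filter_add_sum_filter_not univ (fun h => ∀ a ∈ R, α h a - a ∈ p), ← hI, ← hH,
      sum_eq_zero (s := H) (fun g hg => by rw [prod_eq_zero hg (sub_self _), zero_mul]),
      add_zero] at this
    rw [sum_mul]
    refine (congrArg (· ∈ W) (sum_congr rfl fun g hg => ?_)).mp this
    rw [one_mul, map_mul, hs g (mem_filter.1 hg).2]
    linear_combination (∏ h ∈ H, (α h (x h) - α g (x h))) * α g t * s * chi_inv χ g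

end trace

section norm

variable (A : Subgroup G) [Fintype (G ⧸ A)]

/-- the norm over the cosets of `A` -/
noncomputable def nrm (x : L) : L := ∏ c : G ⧸ A, χ c.out⁻¹ * α c.out x

variable {α χ A}

omit [Fintype (G ⧸ A)] in
theorem coset (hχ : ∀ g h, α g (χ h) = χ h) {x : L} (hx : ∀ a ∈ A, α a x = χ a * x) {g g' : G}
    (e : (g : G ⧸ A) = g') : χ g⁻¹ * α g x = χ g'⁻¹ * α g' x := by
  have m := QuotientGroup.eq.1 e
  obtain ⟨a, ha, rfl⟩ : ∃ a ∈ A, g' = g * a := ⟨_, m, by group⟩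
  rw [← act_mul, hx a ha, map_mul, hχ, mul_inv_rev, map_mul χ]
  linear_combination (-(χ g⁻¹ * α g x)) * chi_inv χ a

theorem nrm_semi (hχ : ∀ g h, α g (χ h) = χ h) {x : L} (hx : ∀ a ∈ A, α a x = χ a * x) (h : G) :
    α h (nrm α χ A x) = χ h ^ A.index * nrm α χ A x := by
  rw [nrm, map_prod, ← Equiv.prod_comp (MulAction.toPerm h : Equiv.Perm (G ⧸ A))
    (fun c : G ⧸ A => χ c.out⁻¹ * α c.out x), Subgroup.index_eq_card, Nat.card_eq_fintype_card,
    ← card_univ, ← prod_const, ← prod_mul_distrib]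
  refine prod_congr rfl fun c _ => ?_
  have e : ((h * c.out : G) : G ⧸ A) = ((h • c).out : G) := by
    rw [QuotientGroup.out_eq', ← smul_eq_mul, ← MulAction.Quotient.smul_mk, QuotientGroup.out_eq']
  rw [MulAction.toPerm_apply, ← coset hχ hx e, map_mul, hχ, act_mul, mul_inv_rev, map_mul χ]
  linear_combination (-(χ c.out⁻¹ * α (h * c.out) x)) * chi_inv χ h

theorem nrm_ne [IsDomain L] {x : L} (hx : x ≠ 0) : nrm α χ A x ≠ 0 :=
  prod_ne_zero_iff.2 fun c _ => mul_ne_zero
    (right_ne_zero_of_mul_eq_one (chi_inv χ c.out)) (by simpa using hx)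

end norm

end Vale.Agent.P283R.Gr
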