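import Vale.Agent.P283R.Gr.Jor
import Mathlib.RingTheory.Nakayama
import Mathlib.RingTheory.LocalRing.MaximalIdeal.Basic

/-!
# Eigenvectors of finite groups: lifting, and generators of stable subspaces and ideals
-/

open Module

namespace Vale.Agent.P283R.Gr

section lin

variable {G : Type} [Group G] {V : Type} [AddCommGroup V] [Module ℂ V]

/-- an eigenvector modulo an invariant subspace lifts to an eigenvector (character given) -/
theorem lift_char [Finite G] (ρ : G →* (V →ₗ[ℂ] V)) (W : Submodule ℂ V)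
    (χ : G →* ℂ) (v : V) (hv : ∀ g, ρ g v - χ g • v ∈ W) :
    ∃ v', v' - v ∈ W ∧ ∀ g, ρ g v' = χ g • v' := by
  classical
  have := Fintype.ofFinite G
  have hc : (Fintype.card G : ℂ) ≠ 0 := Nat.cast_ne_zero.2 Fintype.card_ne_zero
  have h1 : ∀ g, χ g⁻¹ * χ g = 1 := fun g => by rw [← map_mul, inv_mul_cancel, map_one]
  refine ⟨(Fintype.card G : ℂ)⁻¹ • ∑ g, χ g⁻¹ • ρ g v, ?_, fun h => ?_⟩
  · have e : (Fintype.card G : ℂ)⁻¹ • ∑ g, χ g⁻¹ • ρ g v - v =
        (Fintype.card G : ℂ)⁻¹ • ∑ g, χ g⁻¹ • (ρ g v - χ g • v) := by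
      simp only [smul_sub, smul_smul, h1, one_smul, Finset.sum_sub_distrib, Finset.sum_const,
        Finset.card_univ]
      rw [← Nat.cast_smul_eq_nsmul ℂ, smul_smul, inv_mul_cancel₀ hc, one_smul]
    rw [e]
    exact W.smul_mem _ (W.sum_mem fun g _ => W.smul_mem _ (hv g))
  · rw [map_smul, map_sum, smul_comm (χ h), Finset.smul_sum (r := χ h)]
    congr 1
    refine Fintype.sum_equiv (Equiv.mulLeft h) (fun g => ρ h (χ g⁻¹ • ρ g v))
      (fun g => χ h • χ g⁻¹ • ρ g v) fun g => ?_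
    have h2 : χ h * χ (h * g)⁻¹ = χ g⁻¹ := by
      rw [mul_inv_rev, map_mul, mul_comm (χ g⁻¹), ← mul_assoc, mul_comm (χ h), h1, one_mul]
    simp only [Equiv.coe_mulLeft, map_smul, smul_smul, h2, map_mul, End.mul_apply]

/-- an eigenvector modulo an invariant subspace lifts to an eigenvector -/
theorem lift_eig [Finite G] (ρ : G →* (V →ₗ[ℂ] V)) (W : Submodule ℂ V)
    (hW : ∀ g, ∀ w ∈ W, ρ g w ∈ W) (v : V) (hv : ∀ g, ∃ c : ℂ, ρ g v - c • v ∈ W) :
    ∃ v', v' - v ∈ W ∧ ∃ χ : G →* ℂ, ∀ g, ρ g v' = χ g • v' := by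
  by_cases h0 : v ∈ W
  · exact ⟨0, by simpa using h0, 1, fun g => by simp⟩
  choose c hc using hv
  have hu : ∀ a b : ℂ, a • v - b • v ∈ W → a = b := by
    intro a b h
    by_contra hab
    rw [← sub_smul] at h
    exact h0 ((W.smul_mem_iff (sub_ne_zero.2 hab)).1 h)
  let χ : G →* ℂ :=
    { toFun := c
      map_one' := hu _ _ (by simpa using W.neg_mem (hc 1))
      map_mul' := fun g h => hu _ _ (by
        have e : c (g * h) • v - (c g * c h) • v = ρ g (ρ h v - c h • v) +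
            c h • (ρ g v - c g • v) - (ρ (g * h) v - c (g * h) • v) := by
          simp only [map_sub, map_smul, map_mul, End.mul_apply, smul_sub, smul_smul, mul_comm (c h)]
          abel
        rw [e]
        exact W.sub_mem (W.add_mem (hW _ _ (hc h)) (W.smul_mem _ (hc g))) (hc _)) }
  obtain ⟨v', h1, h2⟩ := lift_char ρ W χ v hc
  exact ⟨v', h1, χ, h2⟩

end lin

/-- **Jordan**, for any space spanned by `d` vectors: a subgroup of bounded index has `d` common
eigenvectors that span the space -/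
theorem jordan (d : ℕ) : ∃ J : ℕ, 0 < J ∧ ∀ (G : Type) [Group G] [Finite G] (V : Type)
    [AddCommGroup V] [Module ℂ V] (ρ : G →* (V →ₗ[ℂ] V)) (y : Fin d → V),
    Submodule.span ℂ (Set.range y) = ⊤ → ∃ (A : Subgroup G) (z : Fin d → V), A.index ≤ J ∧
      Submodule.span ℂ (Set.range z) = ⊤ ∧ ∀ i, ∀ a ∈ A, ∃ c : ℂ, ρ a (z i) = c • z i := by
  classical
  choose J hJ key using Jo.jordan_rep'
  refine ⟨(Finset.range (d + 1)).sup J, lt_of_lt_of_le (hJ 0)
    (Finset.le_sup (f := J) (Finset.mem_range.2 d.succ_pos)), ?_⟩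
  intro G _ _ V _ _ ρ y hy
  have : Module.Finite ℂ V := ⟨⟨Finset.univ.image y, by simpa using hy⟩⟩
  have hd : finrank ℂ V ≤ d := by
    have := finrank_range_le_card (R := ℂ) y
    rwa [Set.finrank, hy, finrank_top, Fintype.card_fin] at this
  let e : V ≃ₗ[ℂ] (Fin (finrank ℂ V) → ℂ) := (Module.finBasis ℂ V).equivFun
  let σ : G →* ((Fin (finrank ℂ V) → ℂ) →ₗ[ℂ] (Fin (finrank ℂ V) → ℂ)) :=
    { toFun := fun g => e.toLinearMap ∘ₗ ρ g ∘ₗ e.symm.toLinearMap
      map_one' := by ext; simp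
      map_mul' := fun g h => LinearMap.ext fun v => by simp }
  obtain ⟨A, hA, hs⟩ := key _ G σ
  let E : Set V := {v | ∀ a ∈ A, ∃ c : ℂ, ρ a v = c • v}
  have hE : Submodule.span ℂ E = ⊤ := by
    rw [eq_top_iff]
    intro v _
    have h1 : e v ∈ Submodule.span ℂ {v | ∀ a ∈ A, ∃ c : ℂ, σ a v = c • v} :=
      hs ▸ Submodule.mem_top
    have h2 := Submodule.mem_map_of_mem (f := e.symm.toLinearMap) h1
    rw [Submodule.map_span] at h2
    have h3 : e.symm.toLinearMap (e v) = v := by simp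
    rw [h3] at h2
    refine Submodule.span_mono ?_ h2
    rintro _ ⟨u, hu, rfl⟩ a ha
    obtain ⟨c, hc⟩ := hu a ha
    refine ⟨c, e.injective ?_⟩
    simpa [σ] using hc
  obtain ⟨b, hbE, hb, hli⟩ := exists_linearIndependent ℂ E
  have hbf : b.Finite := hli.setFinite
  have := hbf.fintype
  have hcard : Fintype.card b ≤ Fintype.card (Fin d) := by
    rw [Fintype.card_fin]
    exact (LinearIndependent.fintype_card_le_finrank hli).trans hd
  obtain ⟨ι⟩ := Function.Embedding.nonempty_of_card_le hcard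
  refine ⟨A, Function.extend ι Subtype.val 0, hA.trans (Finset.le_sup (f := J)
    (Finset.mem_range.2 (Nat.lt_succ_of_le hd))), ?_, fun i a ha => ?_⟩
  · rw [eq_top_iff, ← hE, ← hb]
    exact Submodule.span_mono fun v hv => ⟨ι ⟨v, hv⟩, ι.injective.extend_apply _ _ _⟩
  · by_cases hi : ∃ x, ι x = i
    · obtain ⟨x, rfl⟩ := hi
      rw [ι.injective.extend_apply]
      exact hbE x.2 a ha
    · rw [Function.extend_apply' _ _ _ hi]
      exact ⟨0, by simp⟩

/-- **Jordan modulo a subspace**: `U` and `W` invariant, `U` spanned by `d` vectors modulo `W`;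
a subgroup of bounded index has `d` common eigenvectors in `U` that span `U` modulo `W` -/
theorem jordan_mod (d : ℕ) : ∃ J : ℕ, 0 < J ∧ ∀ (G : Type) [Group G] [Finite G] (V : Type)
    [AddCommGroup V] [Module ℂ V] (ρ : G →* (V →ₗ[ℂ] V)) (U W : Submodule ℂ V) (y : Fin d → V),
    W ≤ U → (∀ g, ∀ u ∈ U, ρ g u ∈ U) → (∀ g, ∀ w ∈ W, ρ g w ∈ W) → (∀ i, y i ∈ U) →
    U ≤ W ⊔ Submodule.span ℂ (Set.range y) →
    ∃ (A : Subgroup G) (z : Fin d → V) (χ : Fin d → A →* ℂ), A.index ≤ J ∧ (∀ i, z i ∈ U) ∧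
      U ≤ W ⊔ Submodule.span ℂ (Set.range z) ∧ ∀ i (a : A), ρ a (z i) = χ i a • z i := by
  obtain ⟨J, hJ, key⟩ := jordan d
  refine ⟨J, hJ, ?_⟩
  intro G _ _ V _ _ ρ U W y hWU hU hW hy hUy
  let W' : Submodule ℂ U := W.comap U.subtype
  let σ : G →* ((U ⧸ W') →ₗ[ℂ] (U ⧸ W')) :=
    { toFun := fun g => W'.mapQ W' ((ρ g).restrict (hU g)) fun w hw => hW g _ hw
      map_one' := by
        refine W'.linearMap_qext (LinearMap.ext fun u => ?_)
        simp only [map_one, LinearMap.comp_apply, Submodule.mkQ_apply, Submodule.mapQ_apply,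
          End.one_apply]
        rfl
      map_mul' := fun g h => by
        refine W'.linearMap_qext (LinearMap.ext fun u => ?_)
        simp only [map_mul, LinearMap.comp_apply, Submodule.mkQ_apply, Submodule.mapQ_apply,
          End.mul_apply]
        rfl }
  have hsp : ∀ z : Fin d → U, Submodule.span ℂ (Set.range fun i => W'.mkQ (z i)) = ⊤ ↔
      U ≤ W ⊔ Submodule.span ℂ (Set.range fun i => (z i : V)) := by
    intro z
    constructor
    · intro h u hu
      have h1 : W'.mkQ ⟨u, hu⟩ ∈ Submodule.span ℂ (Set.range fun i => W'.mkQ (z i)) :=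
        h ▸ Submodule.mem_top
      obtain ⟨c, hc⟩ := (Submodule.mem_span_range_iff_exists_fun ℂ).1 h1
      have h2 : (⟨u, hu⟩ : U) - ∑ i, c i • z i ∈ W' := by
        rw [← Submodule.Quotient.eq, ← Submodule.mkQ_apply, ← Submodule.mkQ_apply, ← hc]
        simp
      have h3 : u - ∑ i, c i • (z i : V) ∈ W := by simpa [W'] using h2
      exact Submodule.mem_sup.2 ⟨_, h3, _, (Submodule.mem_span_range_iff_exists_fun ℂ).2 ⟨c, rfl⟩,
        sub_add_cancel _ _⟩
    · intro h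
      rw [eq_top_iff]
      intro q _
      obtain ⟨u, rfl⟩ := W'.mkQ_surjective q
      obtain ⟨w, hw, s, hs, e⟩ := Submodule.mem_sup.1 (h u.2)
      obtain ⟨c, rfl⟩ := (Submodule.mem_span_range_iff_exists_fun ℂ).1 hs
      refine (Submodule.mem_span_range_iff_exists_fun ℂ).2 ⟨c, ?_⟩
      have h2 : (∑ i, c i • z i) - u ∈ W' := by
        have : (∑ i, c i • (z i : V)) - u = -w := by rw [← e]; abel
        simpa [W', this] using hw
      have h3 := (Submodule.Quotient.eq W').2 h2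
      rw [← Submodule.mkQ_apply, ← Submodule.mkQ_apply] at h3
      rw [← h3]
      simp
  obtain ⟨A, zb, hA, hz, he⟩ := key G (U ⧸ W') σ (fun i => W'.mkQ ⟨y i, hy i⟩) ((hsp _).2 hUy)
  choose z0 hz0 using fun i => W'.mkQ_surjective (zb i)
  have h4 : ∀ i, ∃ v', v' - (z0 i : V) ∈ W ∧ ∃ χ : A →* ℂ, ∀ g : A, ρ g v' = χ g • v' := by
    intro i
    refine lift_eig (ρ.comp A.subtype) W (fun g => hW g) (z0 i) fun g => ?_
    obtain ⟨c, hc⟩ := he i g g.2
    refine ⟨c, ?_⟩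
    rw [← hz0 i, ← map_smul] at hc
    exact (Submodule.Quotient.eq W').1 hc
  choose z hz1 χ hχ using h4
  have hzU : ∀ i, z i ∈ U := fun i => by
    simpa using U.add_mem (hWU (hz1 i)) (z0 i).2
  refine ⟨A, z, χ, hA, hzU, (hsp fun i => ⟨z i, hzU i⟩).1 ?_, hχ⟩
  rw [← hz]
  congr 2
  funext i
  rw [← hz0 i]
  exact (Submodule.Quotient.eq W').2 (hz1 i)

section ring

variable {G : Type} [Group G] {O : Type} [CommRing O] [Algebra ℂ O]

/-- the linear action that belongs to an action by algebra automorphisms -/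
def rep (α : G →* (O ≃ₐ[ℂ] O)) : G →* (O →ₗ[ℂ] O) where
  toFun g := (α g).toLinearMap
  map_one' := by rw [map_one]; rfl
  map_mul' g h := by rw [map_mul]; rfl

@[simp] theorem rep_apply (α : G →* (O ≃ₐ[ℂ] O)) (g : G) (a : O) : rep α g a = α g a := rfl

theorem mul_stable (α : G →* (O ≃ₐ[ℂ] O)) {m I : Ideal O} (hm : ∀ g, ∀ a ∈ m, α g a ∈ m)
    (hI : ∀ g, ∀ a ∈ I, α g a ∈ I) (g : G) : ∀ a ∈ m * I, α g a ∈ m * I := by
  intro a ha
  refine Submodule.mul_induction_on ha (fun x hx y hy => ?_) fun x y hx hy => ?_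
  · rw [map_mul]; exact Ideal.mul_mem_mul (hm g x hx) (hI g y hy)
  · rw [map_add]; exact add_mem hx hy

/-- an ideal generated by the `y i` modulo `m I` is spanned by them over `ℂ` modulo `m I` -/
theorem le_span_of (m I : Ideal O) (hres : ∀ a, ∃ c : ℂ, a - algebraMap ℂ O c ∈ m) {d : ℕ}
    (y : Fin d → O) (hy : ∀ i, y i ∈ I) (h : I ≤ m * I ⊔ Ideal.span (Set.range y)) :
    I.restrictScalars ℂ ≤ (m * I).restrictScalars ℂ ⊔ Submodule.span ℂ (Set.range y) := by
  intro u hu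
  obtain ⟨w, hw, s, hs, rfl⟩ := Submodule.mem_sup.1 (h hu)
  obtain ⟨r, rfl⟩ := Ideal.mem_span_range_iff_exists_fun.1 hs
  choose c hc using hres
  refine Submodule.mem_sup.2 ⟨w + ∑ i, (r i - algebraMap ℂ O (c (r i))) * y i,
    add_mem hw (Ideal.sum_mem _ fun i _ => Ideal.mul_mem_mul (hc _) (hy i)),
    ∑ i, c (r i) • y i, (Submodule.mem_span_range_iff_exists_fun ℂ).2 ⟨_, rfl⟩, ?_⟩
  simp only [sub_mul, Finset.sum_sub_distrib, Algebra.smul_def]
  abel

theorem le_ideal_of (W I : Ideal O) {d : ℕ} (z : Fin d → O)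
    (h : I.restrictScalars ℂ ≤ W.restrictScalars ℂ ⊔ Submodule.span ℂ (Set.range z)) :
    I ≤ W ⊔ Ideal.span (Set.range z) := by
  intro u hu
  obtain ⟨w, hw, s, hs, rfl⟩ := Submodule.mem_sup.1 (h hu)
  exact Submodule.add_mem_sup hw (Submodule.span_le_restrictScalars ℂ O _ hs)

omit [Algebra ℂ O] in
/-- Nakayama: generators modulo `m I` generate -/
theorem span_eq_of [IsLocalRing O] (I : Ideal O) (hfg : I.FG) {d : ℕ} (z : Fin d → O)
    (hz : ∀ i, z i ∈ I) (h : I ≤ IsLocalRing.maximalIdeal O * I ⊔ Ideal.span (Set.range z)) :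
    Ideal.span (Set.range z) = I := by
  refine le_antisymm (Ideal.span_le.2 (Set.range_subset_iff.2 hz)) ?_
  refine Submodule.le_of_le_smul_of_le_jacobson_bot hfg
    (IsLocalRing.maximalIdeal_le_jacobson ⊥) ?_
  rwa [sup_comm, Ideal.smul_eq_mul]

/-- a stable principal ideal has a semi-invariant generator modulo `m` -/
theorem semi_gen [Finite G] (α : G →* (O ≃ₐ[ℂ] O)) (m : Ideal O)
    (hres : ∀ a, ∃ c : ℂ, a - algebraMap ℂ O c ∈ m) (hm : ∀ g, ∀ a ∈ m, α g a ∈ m) (f : O)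
    (hf : ∀ g, f ∣ α g f) :
    ∃ (t : O) (χ : G →* ℂ), t ∈ m ∧ ∀ g, α g ((1 + t) * f) = χ g • ((1 + t) * f) := by
  have hI : ∀ g, ∀ a ∈ Ideal.span {f}, α g a ∈ Ideal.span {f} := by
    intro g a ha
    obtain ⟨b, rfl⟩ := Ideal.mem_span_singleton.1 ha
    rw [map_mul]
    exact Ideal.mul_mem_right _ _ (Ideal.mem_span_singleton.2 (hf g))
  obtain ⟨v, h1, χ, h2⟩ := lift_eig (rep α) ((m * Ideal.span {f}).restrictScalars ℂ)
    (mul_stable α hm hI) f fun g => by
      obtain ⟨b, hb⟩ := hf g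
      obtain ⟨c, hc⟩ := hres b
      refine ⟨c, ?_⟩
      have e : rep α g f - c • f = (b - algebraMap ℂ O c) * f := by
        rw [rep_apply, hb, Algebra.smul_def]; ring
      rw [e]
      exact Ideal.mul_mem_mul hc (Ideal.mem_span_singleton_self f)
  obtain ⟨t, ht, e⟩ := Ideal.mem_mul_span_singleton.1 h1
  have e' : (1 + t) * f = v := by rw [add_mul, one_mul, e]; ring
  exact ⟨t, χ, ht, fun g => e' ▸ h2 g⟩

end ring

/-- **Eigen-generators**: a finite group acts on `O`, `m` and `I` are stable ideals, `O / m = ℂ`,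
`I` is generated by `d` elements modulo `m I`; then for a subgroup of bounded index there are `d`
semi-invariant generators modulo `m I` -/
theorem eig_ideal (d : ℕ) : ∃ J : ℕ, 0 < J ∧ ∀ (G : Type) [Group G] [Finite G] (O : Type)
    [CommRing O] [Algebra ℂ O] (α : G →* (O ≃ₐ[ℂ] O)) (m I : Ideal O) (y : Fin d → O),
    (∀ a, ∃ c : ℂ, a - algebraMap ℂ O c ∈ m) → (∀ g, ∀ a ∈ m, α g a ∈ m) →
    (∀ g, ∀ a ∈ I, α g a ∈ I) → (∀ i, y i ∈ I) → I ≤ m * I ⊔ Ideal.span (Set.range y) →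
    ∃ (A : Subgroup G) (z : Fin d → O) (χ : Fin d → A →* ℂ), A.index ≤ J ∧ (∀ i, z i ∈ I) ∧
      I ≤ m * I ⊔ Ideal.span (Set.range z) ∧ ∀ i (a : A), α a (z i) = χ i a • z i := by
  obtain ⟨J, hJ, key⟩ := jordan_mod d
  refine ⟨J, hJ, ?_⟩
  intro G _ _ O _ _ α m I y hres hm hI hy h
  have a1 : (m * I).restrictScalars ℂ ≤ I.restrictScalars ℂ := fun _ ha =>
    (Ideal.mul_le_right (I := m) (J := I)) ha
  have a2 : ∀ g, ∀ u ∈ I.restrictScalars ℂ, rep α g u ∈ I.restrictScalars ℂ := hI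
  have a3 : ∀ g, ∀ u ∈ (m * I).restrictScalars ℂ, rep α g u ∈ (m * I).restrictScalars ℂ :=
    mul_stable α hm hI
  have a4 : ∀ i, y i ∈ I.restrictScalars ℂ := hy
  obtain ⟨A, z, χ, h1, h2, h3, h4⟩ := key G O (rep α) (I.restrictScalars ℂ)
    ((m * I).restrictScalars ℂ) y a1 a2 a3 a4 (le_span_of m I hres y hy h)
  have h5 : I ≤ m * I ⊔ Ideal.span (Set.range z) := le_ideal_of (m * I) I z h3
  have h6 : ∀ i, z i ∈ I := h2
  have h7 : ∀ i (a : A), α a (z i) = χ i a • z i := fun i a =>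
    (rep_apply α a (z i)).symm.trans (h4 i a)
  exact ⟨A, z, χ, h1, h6, h5, h7⟩

/-- **Eigen-generators in a local ring** with residue field `ℂ`: a stable ideal with `d` generators
has `d` generators that are semi-invariant for a subgroup of bounded index -/
theorem eig_local (d : ℕ) : ∃ J : ℕ, 0 < J ∧ ∀ (G : Type) [Group G] [Finite G] (O : Type)
    [CommRing O] [IsLocalRing O] [Algebra ℂ O] (α : G →* (O ≃ₐ[ℂ] O)) (y : Fin d → O),
    (∀ a, ∃ c : ℂ, a - algebraMap ℂ O c ∈ IsLocalRing.maximalIdeal O) →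
    (∀ g i, α g (y i) ∈ Ideal.span (Set.range y)) →
    ∃ (A : Subgroup G) (z : Fin d → O) (χ : Fin d → A →* ℂ), A.index ≤ J ∧
      Ideal.span (Set.range z) = Ideal.span (Set.range y) ∧
      ∀ i (a : A), α a (z i) = χ i a • z i := by
  classical
  obtain ⟨J, hJ, key⟩ := eig_ideal d
  refine ⟨J, hJ, ?_⟩
  intro G _ _ O _ _ _ α y hres hy
  have hm : ∀ g, ∀ a ∈ IsLocalRing.maximalIdeal O, α g a ∈ IsLocalRing.maximalIdeal O := by
    intro g a ha
    rw [IsLocalRing.mem_maximalIdeal, mem_nonunits_iff] at ha ⊢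
    exact fun h => ha (by simpa using h.map (α g).symm)
  have hI : ∀ g, ∀ a ∈ Ideal.span (Set.range y), α g a ∈ Ideal.span (Set.range y) := by
    intro g a ha
    obtain ⟨r, rfl⟩ := Ideal.mem_span_range_iff_exists_fun.1 ha
    rw [map_sum]
    exact Ideal.sum_mem _ fun i _ => by rw [map_mul]; exact Ideal.mul_mem_left _ _ (hy g i)
  obtain ⟨A, z, χ, h1, h2, h3, h4⟩ := key G O α (IsLocalRing.maximalIdeal O) _ y hres hm hI
    (fun i => Ideal.subset_span ⟨i, rfl⟩) le_sup_right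
  exact ⟨A, z, χ, h1, span_eq_of _ (Submodule.fg_span (Set.finite_range y)) z h2 h3, h4⟩

end Vale.Agent.P283R.Gr
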