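import Mathlib.Analysis.Complex.Polynomial.Basic
import Mathlib.LinearAlgebra.Eigenspace.Triangularizable
import Mathlib.MeasureTheory.Measure.Lebesgue.EqHaar
import Mathlib.Analysis.Normed.Module.FiniteDimension
import Mathlib.GroupTheory.Index
import Mathlib.Tactic

/-!
# The theorem of Jordan on finite linear groups
-/

open Module Set MeasureTheory Metric Function
open scoped ENNReal

namespace Vale.Agent.P283R.Gr.Jo

/-- a `c`-separated set in the unit ball is bounded in terms of the dimension -/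
theorem packing {E : Type*} [NormedAddCommGroup E] [NormedSpace ℝ E] [FiniteDimensional ℝ E]
    (c : ℝ) (hc : 0 < c) (s : Finset E) (hs : ∀ x ∈ s, ‖x‖ ≤ 1)
    (h : ∀ x ∈ s, ∀ y ∈ s, x ≠ y → c ≤ ‖x - y‖) :
    (s.card : ℝ) ≤ (2 / c + 1) ^ finrank ℝ E := by
  borelize E
  let μ : Measure E := Measure.addHaar
  let δ : ℝ := c / 2
  let ρ : ℝ := 1 + c / 2
  have ρpos : 0 < ρ := by positivity
  have δpos : 0 < δ := by positivity
  set A := ⋃ x ∈ s, ball (x : E) δ with hA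
  have D : Set.Pairwise (s : Set E) (Disjoint on fun x => ball (x : E) δ) := by
    rintro x hx y hy hxy
    apply ball_disjoint_ball
    rw [dist_eq_norm]
    have := h x hx y hy hxy
    show c / 2 + c / 2 ≤ _
    linarith only [this]
  have A_subset : A ⊆ ball (0 : E) ρ := by
    refine iUnion₂_subset fun x hx => ?_
    apply ball_subset_ball'
    calc
      δ + dist x 0 ≤ δ + 1 := by rw [dist_zero_right]; exact add_le_add le_rfl (hs x hx)
      _ = ρ := by simp only [δ, ρ]; ring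
  have I :
    (s.card : ℝ≥0∞) * ENNReal.ofReal (δ ^ finrank ℝ E) * μ (ball 0 1) ≤
      ENNReal.ofReal (ρ ^ finrank ℝ E) * μ (ball 0 1) :=
    calc
      (s.card : ℝ≥0∞) * ENNReal.ofReal (δ ^ finrank ℝ E) * μ (ball 0 1) = μ A := by
        rw [hA, measure_biUnion_finset D fun c _ => measurableSet_ball]
        simp only [μ.addHaar_ball_of_pos _ δpos]
        simp only [Finset.sum_const, nsmul_eq_mul, mul_assoc]
      _ ≤ μ (ball (0 : E) ρ) := measure_mono A_subset
      _ = ENNReal.ofReal (ρ ^ finrank ℝ E) * μ (ball 0 1) := by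
        simp only [μ.addHaar_ball_of_pos _ ρpos]
  have J : (s.card : ℝ≥0∞) * ENNReal.ofReal (δ ^ finrank ℝ E) ≤ ENNReal.ofReal (ρ ^ finrank ℝ E) :=
    (ENNReal.mul_le_mul_iff_left (measure_ball_pos _ _ zero_lt_one).ne' measure_ball_lt_top.ne).1 I
  have K : (s.card : ℝ) * δ ^ finrank ℝ E ≤ ρ ^ finrank ℝ E := by
    have := ENNReal.toReal_le_of_le_ofReal (pow_nonneg ρpos.le _) J
    rw [ENNReal.toReal_mul, ENNReal.toReal_ofReal (pow_nonneg δpos.le _)] at this
    simpa only [ge_iff_le, ENNReal.toReal_natCast] using this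
  have hρδ : 2 / c + 1 = ρ / δ := by
    simp only [ρ, δ]
    field_simp
  rw [hρδ, div_pow]
  rw [le_div_iff₀ (pow_pos δpos _)]
  exact K

section Core

variable {G : Type} [Group G] [Finite G] {V : Type} [NormedAddCommGroup V] [NormedSpace ℂ V]
  [FiniteDimensional ℂ V]

/-- operator norm of an endomorphism -/
noncomputable def opN (T : V →ₗ[ℂ] V) : ℝ := ‖LinearMap.toContinuousLinearMap T‖

lemma opN_nonneg (T : V →ₗ[ℂ] V) : 0 ≤ opN T := norm_nonneg _

lemma le_opN (T : V →ₗ[ℂ] V) (v : V) : ‖T v‖ ≤ opN T * ‖v‖ :=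
  (LinearMap.toContinuousLinearMap T).le_opNorm v

lemma opN_le (T : V →ₗ[ℂ] V) {C : ℝ} (hC : 0 ≤ C) (h : ∀ v, ‖T v‖ ≤ C * ‖v‖) : opN T ≤ C :=
  (LinearMap.toContinuousLinearMap T).opNorm_le_bound hC h

lemma opN_mul (S T : V →ₗ[ℂ] V) : opN (S * T) ≤ opN S * opN T :=
  opN_le _ (mul_nonneg (opN_nonneg _) (opN_nonneg _)) fun v => by
    calc ‖(S * T) v‖ = ‖S (T v)‖ := rfl
      _ ≤ opN S * ‖T v‖ := le_opN _ _
      _ ≤ opN S * (opN T * ‖v‖) := mul_le_mul_of_nonneg_left (le_opN _ _) (opN_nonneg _)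
      _ = _ := by ring

lemma opN_sub (S T : V →ₗ[ℂ] V) : opN (S - T) ≤ opN S + opN T := by
  unfold opN
  rw [map_sub]
  exact norm_sub_le _ _

lemma opN_eq_zero {T : V →ₗ[ℂ] V} (h : opN T = 0) : T = 0 := by
  unfold opN at h
  rw [norm_eq_zero] at h
  exact (LinearEquiv.map_eq_zero_iff _).mp h

variable (ρ : G →* (V →ₗ[ℂ] V)) (hρ : ∀ g v, ‖ρ g v‖ = ‖v‖)

include hρ

omit [Finite G] in
lemma opN_iso_le (g : G) : opN (ρ g) ≤ 1 := opN_le _ zero_le_one fun v => by rw [hρ]; simp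

omit [Finite G] in
lemma opN_iso_mul (g : G) (T : V →ₗ[ℂ] V) : opN T ≤ opN (ρ g * T) := by
  refine opN_le _ (opN_nonneg _) fun v => ?_
  calc ‖T v‖ = ‖ρ g (T v)‖ := (hρ _ _).symm
    _ = ‖(ρ g * T) v‖ := rfl
    _ ≤ _ := le_opN _ _

omit [Finite G] in
lemma opN_mul_iso (g : G) (T : V →ₗ[ℂ] V) : opN (T * ρ g) ≤ opN T := by
  calc opN (T * ρ g) ≤ opN T * opN (ρ g) := opN_mul _ _
    _ ≤ opN T * 1 := mul_le_mul_of_nonneg_left (opN_iso_le ρ hρ g) (opN_nonneg _)
    _ = opN T := mul_one _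

omit [Finite G] in
lemma opN_comm (g h : G) : opN (ρ (g * h * g⁻¹ * h⁻¹) - 1) ≤ 2 * opN (ρ g - 1) * opN (ρ h - 1) := by
  have h1 : ρ (g * h * g⁻¹ * h⁻¹) - 1 = ((ρ g - 1) * (ρ h - 1) - (ρ h - 1) * (ρ g - 1)) *
      ρ (g⁻¹ * h⁻¹) := by
    have h2 : (ρ g - 1) * (ρ h - 1) - (ρ h - 1) * (ρ g - 1) = ρ (g * h) - ρ (h * g) := by
      rw [map_mul, map_mul]; noncomm_ring
    rw [h2, sub_mul, ← map_mul, ← map_mul]
    have h3 : g * h * (g⁻¹ * h⁻¹) = g * h * g⁻¹ * h⁻¹ := by group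
    have h4 : h * g * (g⁻¹ * h⁻¹) = 1 := by group
    rw [h3, h4, map_one]
  rw [h1]
  refine (opN_mul_iso ρ hρ _ _).trans ((opN_sub _ _).trans ?_)
  have := opN_mul (ρ g - 1) (ρ h - 1)
  have := opN_mul (ρ h - 1) (ρ g - 1)
  (clear hρ h1; nlinarith)

omit [Finite G] in
lemma opN_sub_one_le (g : G) : opN (ρ g - 1) ≤ 2 := by
  refine opN_le _ (by norm_num) fun v => ?_
  calc ‖(ρ g - 1) v‖ = ‖ρ g v - v‖ := rfl
    _ ≤ ‖ρ g v‖ + ‖v‖ := norm_sub_le _ _
    _ = 2 * ‖v‖ := by rw [hρ]; ring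

/-- the subgroup generated by elements close to the identity has bounded index -/
lemma index_closure (c : ℝ) (hc : 0 < c) (d : ℕ) (hd : finrank ℂ V ≤ d) :
    (Subgroup.closure {g : G | opN (ρ g - 1) < c}).index ≤ (⌈2 / c⌉₊ + 1) ^ (2 * d ^ 2) := by
  classical
  set H := Subgroup.closure {g : G | opN (ρ g - 1) < c} with hH
  have : Fintype (G ⧸ H) := Fintype.ofFinite _
  let f : G ⧸ H → (V →L[ℂ] V) := fun x => LinearMap.toContinuousLinearMap (ρ x.out)
  have hsep : ∀ x y, x ≠ y → c ≤ ‖f x - f y‖ := by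
    intro x y hxy
    by_contra hlt
    push Not at hlt
    apply hxy
    have h1 : opN (ρ (x.out⁻¹ * y.out) - 1) < c := by
      have h2 : opN (ρ (x.out⁻¹ * y.out) - 1) ≤ opN (ρ y.out - ρ x.out) := by
        refine (opN_iso_mul ρ hρ x.out _).trans (le_of_eq ?_)
        rw [mul_sub, ← map_mul, mul_one]
        congr 3
        group
      refine lt_of_le_of_lt h2 ?_
      have h3 : opN (ρ y.out - ρ x.out) = ‖f x - f y‖ := by
        rw [norm_sub_rev]
        unfold opN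
        rw [map_sub]
      rw [h3]; exact hlt
    have h4 : x.out⁻¹ * y.out ∈ H := Subgroup.subset_closure h1
    have h5 : (x.out : G ⧸ H) = (y.out : G ⧸ H) := QuotientGroup.eq.mpr h4
    rw [QuotientGroup.out_eq', QuotientGroup.out_eq'] at h5
    exact h5
  have hinj : Injective f := by
    intro x y hxy
    by_contra hne
    have := hsep x y hne
    rw [hxy, sub_self, norm_zero] at this
    linarith only [hc, this]
  let _ : NormedSpace ℝ (V →L[ℂ] V) := NormedSpace.restrictScalars ℝ ℂ _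
  have : FiniteDimensional ℝ (V →L[ℂ] V) := by
    exact Module.Finite.trans ℂ _
  have h1 := packing c hc (Finset.univ.image f)
    (by
      intro x hx
      obtain ⟨y, -, rfl⟩ := Finset.mem_image.mp hx
      exact opN_iso_le ρ hρ _)
    (by
      intro x hx y hy hxy
      obtain ⟨x', -, rfl⟩ := Finset.mem_image.mp hx
      obtain ⟨y', -, rfl⟩ := Finset.mem_image.mp hy
      exact hsep _ _ (fun h => hxy (by rw [h])))
  have h2 : (Finset.univ.image f).card = H.index := by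
    rw [Finset.card_image_of_injective _ hinj, Finset.card_univ, Subgroup.index_eq_card,
      Nat.card_eq_fintype_card]
  have h3 : finrank ℝ (V →L[ℂ] V) ≤ 2 * d ^ 2 := by
    have e1 : finrank ℂ (V →L[ℂ] V) = finrank ℂ V * finrank ℂ V := by
      rw [← (LinearMap.toContinuousLinearMap (𝕜 := ℂ) (E := V) (F' := V)).finrank_eq,
        finrank_linearMap]
    have e2 : finrank ℝ (V →L[ℂ] V) = 2 * finrank ℂ (V →L[ℂ] V) := by
      exact finrank_real_of_complex _
    rw [e2, e1, sq]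
    exact Nat.mul_le_mul_left 2 (Nat.mul_le_mul hd hd)
  rw [h2] at h1
  have h4 : (H.index : ℝ) ≤ ((⌈2 / c⌉₊ + 1 : ℕ) : ℝ) ^ (2 * d ^ 2) := by
    refine h1.trans ?_
    have h5 : (2 / c + 1 : ℝ) ≤ ((⌈2 / c⌉₊ + 1 : ℕ) : ℝ) := by
      push_cast
      have := Nat.le_ceil (2 / c)
      linarith
    have h6 : (1 : ℝ) ≤ 2 / c + 1 := by
      have : 0 < 2 / c := by positivity
      linarith only [this]
    calc (2 / c + 1) ^ finrank ℝ (V →L[ℂ] V) ≤ (2 / c + 1) ^ (2 * d ^ 2) :=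
          pow_le_pow_right₀ h6 h3
      _ ≤ _ := pow_le_pow_left₀ (by linarith only [h6]) h5 _
  exact_mod_cast h4

omit [Finite G] hρ in
lemma root_of_unity_gap {l : ℂ} {n : ℕ} (hn : 0 < n) (hl : l ^ n = 1) (h : (n : ℝ) * ‖l - 1‖ < 1) :
    l = 1 := by
  by_contra hne
  have hnorm : ‖l‖ = 1 := Complex.norm_eq_one_of_pow_eq_one hl hn.ne'
  have h1 : ∀ j : ℕ, ‖1 - l ^ j‖ ≤ j * ‖l - 1‖ := by
    intro j
    induction j with
    | zero => simp
    | succ j ih =>
      have h2 : 1 - l ^ (j + 1) = (1 - l ^ j) - l ^ j * (l - 1) := by ring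
      rw [h2]
      refine (norm_sub_le _ _).trans ?_
      rw [norm_mul, norm_pow, hnorm, one_pow, one_mul]
      push_cast
      linarith only [ih]
  have h2 : ∑ j ∈ Finset.range n, l ^ j = 0 := by
    have := geom_sum_mul l n
    rw [hl, sub_self] at this
    rcases mul_eq_zero.mp this with h | h
    · exact h
    · exact absurd (sub_eq_zero.mp h) hne
  have h3 : (n : ℂ) = ∑ j ∈ Finset.range n, (1 - l ^ j) := by
    rw [Finset.sum_sub_distrib, h2]; simp
  have h4 : (n : ℝ) ≤ ∑ j ∈ Finset.range n, (n : ℝ) * ‖l - 1‖ := by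
    calc (n : ℝ) = ‖(n : ℂ)‖ := by simp
      _ = ‖∑ j ∈ Finset.range n, (1 - l ^ j)‖ := by rw [← h3]
      _ ≤ ∑ j ∈ Finset.range n, ‖1 - l ^ j‖ := norm_sum_le _ _
      _ ≤ _ := Finset.sum_le_sum fun j hj => (h1 j).trans (mul_le_mul_of_nonneg_right
          (by exact_mod_cast (Finset.mem_range.mp hj).le) (norm_nonneg _))
  rw [Finset.sum_const, Finset.card_range, nsmul_eq_mul] at h4
  have hn' : (0 : ℝ) < n := by exact_mod_cast hn
  nlinarith only [h4, h, hn']

/-- a nonscalar element of the subgroup generated by small elements, which is closest to the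
identity, is central -/
lemma exists_central (c : ℝ) (hc : 0 < c) (d : ℕ) (hd : finrank ℂ V ≤ d) (hcd : 4 * c * d < 1)
    (hc2 : 2 * c ≤ 1) (H : Subgroup G) (hH : H = Subgroup.closure {g : G | opN (ρ g - 1) < c})
    (hns : ¬ ∀ g ∈ H, ∃ l : ℂ, ρ g = l • 1) :
    ∃ h ∈ H, (¬ ∃ l : ℂ, ρ h = l • 1) ∧ ∀ g ∈ H, ρ g * ρ h = ρ h * ρ g := by
  classical
  have hne : {g : G | g ∈ H ∧ ¬ ∃ l : ℂ, ρ g = l • 1}.Nonempty := by
    push Not at hns
    obtain ⟨g, hg, hg'⟩ := hns
    exact ⟨g, hg, fun ⟨l, hl⟩ => hg' l hl⟩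
  obtain ⟨h, ⟨hhH, hhns⟩, hmin⟩ := (Set.toFinite {g : G | g ∈ H ∧ ¬ ∃ l : ℂ, ρ g = l • 1}).exists_minimalFor
    (fun g => opN (ρ g - 1)) _ hne
  have hmin' : ∀ g ∈ H, opN (ρ g - 1) < opN (ρ h - 1) → ∃ l : ℂ, ρ g = l • 1 := by
    intro g hg hlt
    by_contra hcon
    have := hmin ⟨hg, hcon⟩ hlt.le
    (clear hρ c hc d hd hcd hc2 hH hns hne hhH hhns; linarith)
  have hpos : 0 < opN (ρ h - 1) := by
    rcases (opN_nonneg (ρ h - 1)).eq_or_lt with h0 | h0
    · exact absurd ⟨1, by rw [one_smul]; exact sub_eq_zero.mp (opN_eq_zero h0.symm)⟩ hhns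
    · exact h0
  have hnt : Nontrivial V := by
    by_contra hcon
    rw [not_nontrivial_iff_subsingleton] at hcon
    exact hhns ⟨1, Subsingleton.elim _ _⟩
  obtain ⟨v, hv⟩ := exists_ne (0 : V)
  have hv' : 0 < ‖v‖ := norm_pos_iff.mpr hv
  refine ⟨h, hhH, hhns, ?_⟩
  have hgen : ∀ g ∈ {g : G | opN (ρ g - 1) < c}, ρ g * ρ h = ρ h * ρ g := by
    intro g hg
    have hgH : g ∈ H := by rw [hH]; exact Subgroup.subset_closure hg
    have hg' : opN (ρ g - 1) < c := hg
    set k := g * h * g⁻¹ * h⁻¹ with hk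
    have hkH : k ∈ H := H.mul_mem (H.mul_mem (H.mul_mem hgH hhH) (H.inv_mem hgH)) (H.inv_mem hhH)
    have h1 := opN_comm ρ hρ g h
    rw [← hk] at h1
    have h2 : opN (ρ k - 1) < opN (ρ h - 1) := by (clear hρ hc d hd hcd H hH hns hne hmin hhH hmin' v hv hv' hgH hk hkH; nlinarith)
    obtain ⟨l, hl⟩ := hmin' k hkH h2
    have h3 : opN (ρ k - 1) ≤ 4 * c := by
      have := opN_sub_one_le ρ hρ h
      have := opN_nonneg (ρ g - 1)
      (clear d hd hcd H hH hns hne hmin hhH hmin' v hv hv' hgH hk hkH h2 l hl this; nlinarith)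
    have h4 : ‖l - 1‖ ≤ 4 * c := by
      have h5 : ‖(ρ k - 1) v‖ ≤ opN (ρ k - 1) * ‖v‖ := le_opN _ _
      have h6 : (ρ k - 1) v = (l - 1) • v := by
        rw [hl, LinearMap.sub_apply, LinearMap.smul_apply, Module.End.one_apply, sub_smul, one_smul]
      rw [h6, norm_smul] at h5
      exact (le_of_mul_le_mul_right h5 hv').trans h3
    have h5 : l ^ finrank ℂ V = 1 := by
      have h6 : LinearMap.det (ρ k) = 1 := by
        have h7 : LinearMap.det (ρ k) = LinearMap.det (ρ (g * g⁻¹)) * LinearMap.det (ρ (h * h⁻¹)) := by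
          rw [hk]
          simp only [map_mul]
          ring
        rw [h7]; simp only [mul_inv_cancel, map_one, mul_one]
      rw [hl, LinearMap.det_smul] at h6
      simpa only [map_one, mul_one] using h6
    have h6 : l = 1 := by
      refine root_of_unity_gap (finrank_pos (R := ℂ) (M := V)) h5 ?_
      have h7 : (finrank ℂ V : ℝ) ≤ d := by exact_mod_cast hd
      calc (finrank ℂ V : ℝ) * ‖l - 1‖ ≤ d * (4 * c) :=
            mul_le_mul h7 h4 (norm_nonneg _) (Nat.cast_nonneg _)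
        _ < 1 := by linarith only [hcd]
    rw [h6, one_smul] at hl
    have h7 : ρ (k * (h * g)) = ρ (g * h) := by
      congr 1
      rw [hk]; group
    rw [map_mul, hl, one_mul] at h7
    rw [← map_mul, ← map_mul, h7]
  intro g hg
  rw [hH] at hg
  induction hg using Subgroup.closure_induction with
  | mem x hx => exact hgen x hx
  | one => rw [map_one]; simp only [one_mul, mul_one]
  | mul x y _ _ hx hy =>
    rw [map_mul, mul_assoc, hy, ← mul_assoc, hx, mul_assoc]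
  | inv x _ hx =>
    have h1 : ρ x⁻¹ * ρ x = 1 := by rw [← map_mul]; simp
    have h2 : ρ x * ρ x⁻¹ = 1 := by rw [← map_mul]; simp
    calc ρ x⁻¹ * ρ h = ρ x⁻¹ * (ρ h * (ρ x * ρ x⁻¹)) := by rw [h2, mul_one]
      _ = ρ x⁻¹ * ((ρ h * ρ x) * ρ x⁻¹) := by rw [mul_assoc]
      _ = ρ x⁻¹ * ((ρ x * ρ h) * ρ x⁻¹) := by rw [hx]
      _ = (ρ x⁻¹ * ρ x) * (ρ h * ρ x⁻¹) := by noncomm_ring
      _ = ρ h * ρ x⁻¹ := by rw [h1, one_mul]

omit hρ in
/-- decomposition into two proper invariant subspaces -/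
lemma exists_decomp (h : G) (hns : ¬ ∃ l : ℂ, ρ h = l • 1) :
    ∃ W₁ W₂ : Submodule ℂ V, W₁ ⊔ W₂ = ⊤ ∧ W₁ ≠ ⊤ ∧ W₂ ≠ ⊤ ∧
      ∀ g, ρ g * ρ h = ρ h * ρ g → (∀ w ∈ W₁, ρ g w ∈ W₁) ∧ (∀ w ∈ W₂, ρ g w ∈ W₂) := by
  classical
  have hnt : Nontrivial V := by
    by_contra hcon
    rw [not_nontrivial_iff_subsingleton] at hcon
    exact hns ⟨1, Subsingleton.elim _ _⟩
  set T := ρ h with hT
  obtain ⟨m, hm, hTm⟩ : ∃ m : ℕ, 0 < m ∧ T ^ m = 1 := by
    refine ⟨orderOf h, orderOf_pos h, ?_⟩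
    rw [hT, ← map_pow, pow_orderOf_eq_one, map_one]
  obtain ⟨μ, hμ⟩ := Module.End.exists_eigenvalue T
  obtain ⟨v, hv⟩ := hμ.exists_hasEigenvector
  have hv1 : T v = μ • v := hv.apply_eq_smul
  have hv0 : v ≠ 0 := hv.2
  have hμm : μ ^ m = 1 := by
    have h1 : ∀ j : ℕ, (T ^ j) v = μ ^ j • v := by
      intro j
      induction j with
      | zero => simp
      | succ j ih =>
        rw [pow_succ, Module.End.mul_apply, hv1, map_smul, ih, smul_smul, pow_succ, mul_comm]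
    have h2 := h1 m
    rw [hTm, Module.End.one_apply] at h2
    have h3 : (μ ^ m - 1) • v = 0 := by rw [sub_smul, one_smul, ← h2, sub_self]
    rcases smul_eq_zero.mp h3 with h4 | h4
    · exact sub_eq_zero.mp h4
    · exact absurd h4 hv0
  open Polynomial in
  obtain ⟨Q, hQ⟩ : (X - C μ : ℂ[X]) ∣ X ^ m - C 1 := by
    rw [Polynomial.dvd_iff_isRoot]
    simp only [map_one, IsRoot.def, eval_sub, eval_pow, eval_X, hμm, eval_one, sub_self]
  open Polynomial in
  have hsep : (X ^ m - C 1 : ℂ[X]).Separable :=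
    separable_X_pow_sub_C 1 (by exact_mod_cast hm.ne') one_ne_zero
  rw [hQ] at hsep
  have hcop := hsep.isCoprime
  open Polynomial in
  refine ⟨LinearMap.ker (aeval T (X - C μ : ℂ[X])), LinearMap.ker (aeval T Q), ?_, ?_, ?_, ?_⟩
  · rw [Polynomial.sup_ker_aeval_eq_ker_aeval_mul_of_coprime T hcop, ← hQ]
    have : (Polynomial.aeval T) (Polynomial.X ^ m - Polynomial.C 1 : Polynomial ℂ) = 0 := by
      simp only [map_one, aeval_sub, map_pow, aeval_X, hTm, sub_self]
    rw [this, LinearMap.ker_zero]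
  · intro htop
    apply hns
    refine ⟨μ, ?_⟩
    rw [LinearMap.ker_eq_top] at htop
    simp only [map_sub, aeval_X, aeval_C] at htop
    rw [sub_eq_zero] at htop
    rw [htop, Algebra.algebraMap_eq_smul_one]
  · intro htop
    have h1 := Polynomial.disjoint_ker_aeval_of_isCoprime T hcop
    rw [htop, disjoint_top] at h1
    have h2 : v ∈ LinearMap.ker ((Polynomial.aeval T) (Polynomial.X - Polynomial.C μ : Polynomial ℂ)) := by
      rw [LinearMap.mem_ker]
      simp only [aeval_sub, aeval_X, aeval_C, LinearMap.sub_apply, hv1, algebraMap_end_apply, sub_self]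
    rw [h1] at h2
    exact hv0 ((Submodule.mem_bot ℂ).mp h2)
  · intro g hg
    have h1 : ∀ P : Polynomial ℂ, Commute (ρ g) (Polynomial.aeval T P) := by
      intro P
      have hc' : Commute (ρ g) T := hg
      induction P using Polynomial.induction_on' with
      | add p q hp hq => rw [map_add]; exact hp.add_right hq
      | monomial n a =>
        rw [Polynomial.aeval_monomial]
        have h3 : Commute (ρ g) (algebraMap ℂ (V →ₗ[ℂ] V) a) := (Algebra.commutes a (ρ g)).symm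
        exact h3.mul_right (hc'.pow_right n)
    have h2 : ∀ P : Polynomial ℂ, ∀ w ∈ LinearMap.ker (Polynomial.aeval T P),
        ρ g w ∈ LinearMap.ker (Polynomial.aeval T P) := by
      intro P w hw
      rw [LinearMap.mem_ker] at hw ⊢
      have h3 := LinearMap.congr_fun (h1 P).eq w
      rw [Module.End.mul_apply, Module.End.mul_apply, hw, map_zero] at h3
      exact h3.symm
    exact ⟨h2 _, h2 _⟩

end Core

/-- restriction of a representation to an invariant subspace (and a subgroup) -/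
def restrictRep {G : Type} [Group G] {V : Type} [AddCommGroup V] [Module ℂ V]
    (ρ : G →* (V →ₗ[ℂ] V)) (H : Subgroup G) (W : Submodule ℂ V)
    (hW : ∀ g ∈ H, ∀ w ∈ W, ρ g w ∈ W) : H →* (W →ₗ[ℂ] W) where
  toFun := fun g => (ρ g).restrict (hW g g.2)
  map_one' := by
    ext w
    simp [LinearMap.restrict_apply]
  map_mul' := by
    intro g h
    ext w
    simp [LinearMap.restrict_apply]

theorem jordan_rep (d : ℕ) : ∃ J : ℕ, 0 < J ∧ ∀ (G : Type) [Group G] [Finite G] (V : Type)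
    [NormedAddCommGroup V] [NormedSpace ℂ V] [FiniteDimensional ℂ V] (ρ : G →* (V →ₗ[ℂ] V)),
    (∀ g v, ‖ρ g v‖ = ‖v‖) → finrank ℂ V ≤ d → ∃ A : Subgroup G, A.index ≤ J ∧
      Submodule.span ℂ {v | ∀ a ∈ A, ∃ c : ℂ, ρ a v = c • v} = ⊤ := by
  induction d with
  | zero =>
    refine ⟨1, one_pos, ?_⟩
    intro G _ _ V _ _ _ ρ hρ hd
    have hs : Subsingleton V := Module.finrank_zero_iff (R := ℂ).mp (Nat.le_zero.mp hd)
    exact ⟨⊤, by simp, Subsingleton.elim _ _⟩
  | succ d ih =>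
    obtain ⟨J, hJ, ih⟩ := ih
    let c : ℝ := 1 / (4 * (d + 2))
    have hc : 0 < c := by positivity
    have hcd : 4 * c * (d + 1 : ℕ) < 1 := by
      simp only [c]
      push_cast
      rw [mul_one_div, div_mul_eq_mul_div, div_lt_one (by positivity)]
      linarith only []
    have hc2 : 2 * c ≤ 1 := by
      simp only [c]
      rw [mul_one_div, div_le_one (by positivity)]
      have : (0 : ℝ) ≤ d := Nat.cast_nonneg d
      linarith
    refine ⟨(⌈2 / c⌉₊ + 1) ^ (2 * (d + 1) ^ 2) * (J * J), by positivity, ?_⟩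
    intro G _ _ V _ _ _ ρ hρ hd
    set H := Subgroup.closure {g : G | opN (ρ g - 1) < c} with hH
    have hidx : H.index ≤ (⌈2 / c⌉₊ + 1) ^ (2 * (d + 1) ^ 2) := index_closure ρ hρ c hc (d + 1) hd
    by_cases hns : ∀ g ∈ H, ∃ l : ℂ, ρ g = l • 1
    · refine ⟨H, ?_, ?_⟩
      · calc H.index ≤ (⌈2 / c⌉₊ + 1) ^ (2 * (d + 1) ^ 2) * 1 := by rw [mul_one]; exact hidx
          _ ≤ _ := Nat.mul_le_mul_left _ (Nat.mul_pos hJ hJ)
      · rw [eq_top_iff]
        intro v _
        refine Submodule.subset_span ?_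
        intro a ha
        obtain ⟨l, hl⟩ := hns a ha
        exact ⟨l, by rw [hl]; simp only [LinearMap.smul_apply, End.one_apply]⟩
    · obtain ⟨h, hhH, hhns, hcomm⟩ := exists_central ρ hρ c hc (d + 1) hd hcd hc2 H hH hns
      obtain ⟨W₁, W₂, hsup, hW₁, hW₂, hinv⟩ := exists_decomp ρ h hhns
      have key : ∀ W : Submodule ℂ V, W ≠ ⊤ → (∀ g ∈ H, ∀ w ∈ W, ρ g w ∈ W) →
          ∃ A : Subgroup H, A.index ≤ J ∧
            W ≤ Submodule.span ℂ {v | ∀ a ∈ A, ∃ c : ℂ, ρ (a : G) v = c • v} := by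
        intro W hW hWinv
        have hlt : finrank ℂ W ≤ d := by
          have := Submodule.finrank_lt (lt_top_iff_ne_top.mpr hW).ne
          omega
        obtain ⟨A, hA, hspan⟩ := ih H W (restrictRep ρ H W hWinv)
          (fun g v => by
            show ‖((restrictRep ρ H W hWinv g v : W) : V)‖ = ‖(v : V)‖
            exact hρ g v) hlt
        refine ⟨A, hA, ?_⟩
        have h1 : (⊤ : Submodule ℂ W).map W.subtype = W := by simp
        rw [← h1, ← hspan, Submodule.map_span, Submodule.span_le]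
        rintro _ ⟨w, hw, rfl⟩
        refine Submodule.subset_span ?_
        intro a ha
        obtain ⟨l, hl⟩ := hw a ha
        refine ⟨l, ?_⟩
        have := congrArg Subtype.val hl
        exact this
      obtain ⟨A₁, hA₁, hs₁⟩ := key W₁ hW₁ (fun g hg => (hinv g (hcomm g hg)).1)
      obtain ⟨A₂, hA₂, hs₂⟩ := key W₂ hW₂ (fun g hg => (hinv g (hcomm g hg)).2)
      refine ⟨(A₁ ⊓ A₂).map H.subtype, ?_, ?_⟩
      · rw [Subgroup.index_map_subtype, mul_comm]
        refine Nat.mul_le_mul hidx ?_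
        exact Subgroup.index_inf_le.trans (Nat.mul_le_mul hA₁ hA₂)
      · rw [eq_top_iff, ← hsup]
        refine sup_le (hs₁.trans ?_) (hs₂.trans ?_)
        · refine Submodule.span_mono ?_
          rintro v hv _ ⟨a, ha, rfl⟩
          exact hv a ha.1
        · refine Submodule.span_mono ?_
          rintro v hv _ ⟨a, ha, rfl⟩
          exact hv a ha.2

/-- Jordan's theorem for representations of finite groups, with simultaneous diagonalization -/
theorem jordan_rep' (d : ℕ) : ∃ J : ℕ, 0 < J ∧ ∀ (G : Type) [Group G] [Finite G]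
    (ρ : G →* ((Fin d → ℂ) →ₗ[ℂ] (Fin d → ℂ))), ∃ A : Subgroup G, A.index ≤ J ∧
      Submodule.span ℂ {v | ∀ a ∈ A, ∃ c : ℂ, ρ a v = c • v} = ⊤ := by
  obtain ⟨J, hJ, key⟩ := jordan_rep d
  refine ⟨J, hJ, ?_⟩
  intro G _ _ ρ
  have : Fintype G := Fintype.ofFinite G
  let Φ : (Fin d → ℂ) →ₗ[ℂ] (G → (Fin d → ℂ)) := LinearMap.pi fun g => ρ g
  have hΦ : Injective Φ := by
    intro v w h
    have h1 := congrFun h 1
    simpa [Φ] using h1
  let σ : G →* ((G → (Fin d → ℂ)) →ₗ[ℂ] (G → (Fin d → ℂ))) :=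
    { toFun := fun h => LinearMap.funLeft ℂ (Fin d → ℂ) (fun g => g * h)
      map_one' := by
        ext F g
        simp only [LinearMap.funLeft, mul_one, LinearMap.coe_mk, AddHom.coe_mk, comp_apply, End.one_apply]
      map_mul' := by
        intro h₁ h₂
        refine LinearMap.ext fun F => ?_
        funext g
        simp only [LinearMap.funLeft, LinearMap.coe_mk, AddHom.coe_mk, comp_apply, End.mul_apply, mul_assoc] }
  have hσ : ∀ h F g, σ h F g = F (g * h) := fun h F g => rfl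
  have hσΦ : ∀ h v, σ h (Φ v) = Φ (ρ h v) := by
    intro h v
    funext g
    rw [hσ]
    show ρ (g * h) v = ρ g (ρ h v)
    rw [map_mul]; rfl
  let W := LinearMap.range Φ
  have hW : ∀ g, ∀ w ∈ W, σ g w ∈ W := by
    rintro g _ ⟨v, rfl⟩
    exact ⟨ρ g v, (hσΦ g v).symm⟩
  let τ : G →* (W →ₗ[ℂ] W) :=
    { toFun := fun g => (σ g).restrict (hW g)
      map_one' := by
        refine LinearMap.ext fun w => Subtype.ext ?_
        show σ 1 w = w
        rw [map_one]; rfl
      map_mul' := by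
        intro g h
        refine LinearMap.ext fun w => Subtype.ext ?_
        show σ (g * h) w = σ g (σ h w)
        rw [map_mul]; rfl }
  have hτ : ∀ g (w : W), ((τ g w : W) : G → (Fin d → ℂ)) = σ g w := fun g w => rfl
  have hnorm : ∀ g (w : W), ‖τ g w‖ = ‖w‖ := by
    intro g w
    show ‖((τ g w : W) : G → (Fin d → ℂ))‖ = ‖(w : G → (Fin d → ℂ))‖
    rw [hτ]
    have h1 : ∀ (g : G) (F : G → (Fin d → ℂ)), ‖σ g F‖ ≤ ‖F‖ := by
      intro g F
      rw [pi_norm_le_iff_of_nonneg (norm_nonneg _)]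
      intro x
      rw [hσ]
      exact norm_le_pi_norm F _
    refine le_antisymm (h1 g _) ?_
    have h2 := h1 g⁻¹ (σ g w)
    have h3 : σ g⁻¹ (σ g w) = (w : G → (Fin d → ℂ)) := by
      funext x
      rw [hσ, hσ]; simp only [inv_mul_cancel_right]
    rw [h3] at h2
    exact h2
  have hfr : finrank ℂ W ≤ d := by
    have := LinearMap.finrank_range_le Φ
    simpa only [ge_iff_le, finrank_fintype_fun_eq_card, Fintype.card_fin] using this
  obtain ⟨A, hA, hspan⟩ := key G W τ hnorm hfr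
  refine ⟨A, hA, ?_⟩
  rw [eq_top_iff]
  intro v _
  have h1 : (⟨Φ v, ⟨v, rfl⟩⟩ : W) ∈ Submodule.span ℂ {w : W | ∀ a ∈ A, ∃ c : ℂ, τ a w = c • w} := by
    rw [hspan]; exact Submodule.mem_top
  have h2 : ((⟨Φ v, ⟨v, rfl⟩⟩ : W) : G → (Fin d → ℂ)) ∈
      (Submodule.span ℂ {w : W | ∀ a ∈ A, ∃ c : ℂ, τ a w = c • w}).map W.subtype :=
    Submodule.mem_map_of_mem h1
  rw [Submodule.map_span] at h2
  have h3 : Submodule.span ℂ (W.subtype '' {w : W | ∀ a ∈ A, ∃ c : ℂ, τ a w = c • w}) ≤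
      (Submodule.span ℂ {v | ∀ a ∈ A, ∃ c : ℂ, ρ a v = c • v}).map Φ := by
    rw [Submodule.span_le]
    rintro _ ⟨⟨_, ⟨u, rfl⟩⟩, hw, rfl⟩
    refine Submodule.mem_map_of_mem (Submodule.subset_span ?_)
    intro a ha
    obtain ⟨c, hc⟩ := hw a ha
    refine ⟨c, hΦ ?_⟩
    rw [← hσΦ, map_smul]
    exact congrArg Subtype.val hc
  obtain ⟨u, hu, huv⟩ := h3 h2
  have : u = v := hΦ huv
  rwa [← this]

end Vale.Agent.P283R.Gr.Jo
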