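import Mathlib.RingTheory.UniqueFactorizationDomain.Multiplicity
import Mathlib.RingTheory.IntegralClosure.IntegrallyClosed
import Mathlib.RingTheory.Polynomial.RationalRoot
import Mathlib.Algebra.Ring.Action.Basic
import Mathlib.Algebra.Algebra.Hom
import Mathlib.Algebra.BigOperators.GroupWithZero.Action

/-!
# P283R: semi-invariant local equations

A finite group acts on a domain `S` over `k` and fixes the point `ev`. An element which generates a
stable ideal near the point is, up to a unit near the point, a semi-invariant.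
-/

namespace Vale.Agent.P283R.Gr

section semi

variable {k S G : Type*} [Field k] [CharZero k] [CommRing S] [IsDomain S] [Algebra k S] [Group G]
  [Finite G] [MulSemiringAction G S] [SMulCommClass G k S]

/-- averaging of the unit cocycle -/
theorem semi (ev : S →ₐ[k] k) (hev : ∀ (g : G) s, ev (g • s) = ev s) {f : S}
    (hf : ∀ g : G, ∃ a b, ev b ≠ 0 ∧ b * g • f = a * f) :
    ∃ (χ : G →* kˣ) (f' a b : S), ev a ≠ 0 ∧ ev b ≠ 0 ∧ b * f' = a * f ∧
      ∀ g : G, g • f' = (χ g : k) • f' := by
  classical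
  by_cases f0 : f = 0
  · exact ⟨1, 0, 1, 1, by simp, by simp, by simp [f0], fun g => by simp⟩
  have := Fintype.ofFinite G
  choose a b hb h using hf
  have uq : ∀ (g : G) (a' b' : S), ev b' ≠ 0 → b' * g • f = a' * f →
      ev (a g) / ev (b g) = ev a' / ev b' := fun g a' b' h1 h2 => by
    rw [div_eq_div_iff (hb g) h1, ← map_mul, ← map_mul]
    congr 1
    exact mul_right_cancel₀ f0 (by linear_combination b g * h2 - b' * h g)
  let c : G →* k :=
    { toFun := fun g => ev (a g) / ev (b g)
      map_one' := by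
        have := uq 1 1 1 (by simp) (by simp)
        simpa using this
      map_mul' := fun g g' => by
        have e := congrArg (g • ·) (h g')
        simp only [smul_mul', ← mul_smul] at e
        rw [uq (g * g') (a g * g • a g') (b g * g • b g')
          (by rw [map_mul, hev]; exact mul_ne_zero (hb g) (hb g'))
          (by linear_combination b g * e + (g • a g') * h g), map_mul, map_mul, hev, hev]
        field_simp }
  have c0 : ∀ g, c g ≠ 0 := fun g => (c.toHomUnits g).ne_zero
  have hc : ∀ g, c g = ev (a g) / ev (b g) := fun _ => rfl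
  refine ⟨c.toHomUnits, ∑ g, (c g)⁻¹ • g • f,
    ∑ g, (c g)⁻¹ • ((∏ g' ∈ Finset.univ.erase g, b g') * a g), ∏ g, b g, ?_, ?_, ?_, fun g => ?_⟩
  · have : ∀ g, ev ((c g)⁻¹ • ((∏ g' ∈ Finset.univ.erase g, b g') * a g)) = ev (∏ g, b g) :=
      fun g => by
        have h1 := hb g
        have h2 : ev (a g) ≠ 0 := fun e => c0 g (by rw [hc, e, zero_div])
        rw [← Finset.prod_erase_mul _ _ (Finset.mem_univ g), map_smul, map_mul, map_mul, hc,
          smul_eq_mul]
        field_simp
    rw [map_sum, Finset.sum_congr rfl fun g _ => this g, Finset.sum_const, nsmul_eq_mul, map_prod]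
    exact mul_ne_zero (Nat.cast_ne_zero.2 Fintype.card_ne_zero)
      (Finset.prod_ne_zero_iff.2 fun g _ => hb g)
  · rw [map_prod]
    exact Finset.prod_ne_zero_iff.2 fun g _ => hb g
  · rw [Finset.mul_sum, Finset.sum_mul]
    refine Finset.sum_congr rfl fun g _ => ?_
    rw [mul_smul_comm, smul_mul_assoc, ← Finset.prod_erase_mul _ _ (Finset.mem_univ g), mul_assoc,
      h g, mul_assoc]
  · rw [Finset.smul_sum, Finset.smul_sum, ← Equiv.sum_comp (Equiv.mulLeft g)
      (fun x => ((c.toHomUnits g : kˣ) : k) • (c x)⁻¹ • x • f)]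
    refine Finset.sum_congr rfl fun x _ => ?_
    have h1 := c0 g
    rw [smul_comm g, ← mul_smul g, smul_smul, Equiv.coe_mulLeft, map_mul, MonoidHom.coe_toHomUnits]
    congr 1
    field_simp

/-- the local form -/
theorem semi_dvd (ev : S →ₐ[k] k) (hev : ∀ (g : G) s, ev (g • s) = ev s)
    (hu : ∀ s, ev s ≠ 0 → IsUnit s) {f : S} (hf : ∀ g : G, f ∣ g • f) :
    ∃ (χ : G →* kˣ) (f' : S), Associated f f' ∧ ∀ g : G, g • f' = (χ g : k) • f' := by
  obtain ⟨χ, f', a, b, ha, hb, e, h⟩ := semi ev hev (f := f) fun g : G => by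
    obtain ⟨a, ha⟩ := hf g
    exact ⟨a, 1, by simp, by rw [ha]; ring⟩
  refine ⟨χ, f', ?_, h⟩
  exact ((associated_unit_mul_left f a (hu a ha)).symm.trans (e ▸ Associated.refl _)).trans
    (associated_unit_mul_left f' b (hu b hb))

end semi

section root

variable {R : Type*} [CommRing R] [IsDomain R] [UniqueFactorizationMonoid R]

/-- roots in a factorial ring -/
theorem root {F : R} (hF : F ≠ 0) {m Q : ℕ}
    (h : ∀ p, Prime p → m ∣ Q * multiplicity p F) : ∃ f, Associated (F ^ Q) (f ^ m) := by
  induction F using (wellFounded_dvdNotUnit (α := R)).induction with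
  | _ F ih =>
  by_cases hu : IsUnit F
  · exact ⟨1, by rw [one_pow]; exact associated_one_iff_isUnit.2 (hu.pow Q)⟩
  obtain ⟨p, hp, hpF⟩ := WfDvdMonoid.exists_irreducible_factor hu hF
  have pp : Prime p := UniqueFactorizationMonoid.irreducible_iff_prime.1 hp
  have fin : FiniteMultiplicity p F := FiniteMultiplicity.of_prime_left pp hF
  obtain ⟨F', e, hn'⟩ := fin.exists_eq_pow_mul_and_not_dvd
  have F0 : F' ≠ 0 := fun e' => hF (by rw [e, e', mul_zero])
  have m0 : multiplicity p F ≠ 0 := multiplicity_ne_zero.2 hpF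
  obtain ⟨t, ht⟩ := h p pp
  have hc : DvdNotUnit F' F := ⟨F0, p ^ multiplicity p F,
    fun e' => hp.not_isUnit ((isUnit_pow_iff m0).1 e'), by rw [mul_comm]; exact e⟩
  obtain ⟨f, hf⟩ := ih _ hc F0 (fun q hq => by
    by_cases hqp : q ∣ p
    · have : ¬ q ∣ F' := fun e' => hn' (((hq.dvd_prime_iff_associated pp).1 hqp).symm.dvd.trans e')
      rw [multiplicity_eq_zero.2 this]
      simp
    · have := h q hq
      rwa [e, multiplicity_mul hq (FiniteMultiplicity.of_prime_left hq (e ▸ hF)),
        multiplicity_eq_zero.2 (fun e' => hqp (hq.dvd_of_dvd_pow e')), zero_add] at this)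
  refine ⟨p ^ t * f, ?_⟩
  rw [e, mul_pow, mul_pow, ← pow_mul, ← pow_mul, mul_comm _ Q, ht, mul_comm t m]
  exact hf.mul_left _

/-- associated powers have associated roots -/
theorem assoc_of_pow {f g : R} {m : ℕ} (hm : m ≠ 0) (h : Associated (f ^ m) (g ^ m)) :
    Associated f g :=
  associated_of_dvd_dvd ((UniqueFactorizationMonoid.pow_dvd_pow_iff_dvd hm).1 h.dvd)
    ((UniqueFactorizationMonoid.pow_dvd_pow_iff_dvd hm).1 h.symm.dvd)

end root

/-- the semi-invariant root in a factorial local ring -/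
theorem semi_root {k S G : Type*} [Field k] [CharZero k] [CommRing S] [IsDomain S] [Algebra k S]
    [UniqueFactorizationMonoid S] [Group G] [Finite G] [MulSemiringAction G S]
    [SMulCommClass G k S] (ev : S →ₐ[k] k) (hev : ∀ (g : G) s, ev (g • s) = ev s)
    (hu : ∀ s, ev s ≠ 0 → IsUnit s) {F : S} (hF : F ≠ 0) (hG : ∀ g : G, Associated (g • F) F)
    {m Q : ℕ} (hm : m ≠ 0) (h : ∀ p, Prime p → m ∣ Q * multiplicity p F) :
    ∃ (χ : G →* kˣ) (f : S), Associated (F ^ Q) (f ^ m) ∧ ∀ g : G, g • f = (χ g : k) • f := by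
  obtain ⟨f, hf⟩ := root hF h
  obtain ⟨χ, f', e, h'⟩ := semi_dvd ev hev hu (f := f) fun g : G => by
    have e1 := hf.map (MulSemiringAction.toRingHom G S g)
    simp only [map_pow, MulSemiringAction.toRingHom_apply] at e1
    exact (assoc_of_pow hm ((hf.symm.trans (hG g).symm.pow_pow).trans e1)).dvd
  exact ⟨χ, f', hf.trans e.pow_pow, h'⟩

end Vale.Agent.P283R.Gr
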